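import Vale.Agent.P353.Z.Ident
import Vale.Agent.P353.Z.Ana

open MeasureTheory Filter Topology
open scoped ContDiff

namespace Vale.Agent.P353.Z

variable {d : ℕ}

namespace CS

variable {R : Type*} [Ring R] [Algebra ℂ R] (S : CS d R)

lemma X_eq_sum (X : Fin 9 → Fin d → ℂ) : X = ∑ i, ∑ A, X i A • E1 i A := by
  funext j B
  simp only [Finset.sum_apply, Pi.smul_apply, E1, smul_eq_mul, mul_ite, mul_one, mul_zero]
  have : ∀ i, ∑ A, (if j = i ∧ B = A then X i A else 0) = if j = i then X j B else 0 := by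
    intro i
    by_cases h : j = i
    · subst h; simp
    · simp [h]
  simp [this]

/-- `MJv` as a linear map -/
noncomputable def MJvL (k l : Fin 9) (β : Fin 16) : (Fin 9 → Fin d → ℂ) →ₗ[ℂ] R where
  toFun X := S.MJv k l X β
  map_add' X Y := by
    simp only [MJv, Pi.add_apply, add_smul, Finset.sum_add_distrib, Finset.sum_sub_distrib]
    module
  map_smul' c X := by
    simp only [MJv, Pi.smul_apply, smul_eq_mul, mul_smul, ← Finset.smul_sum, ← smul_sub,
      RingHom.id_apply]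
    module

lemma MJv_eq_sum (k l : Fin 9) (X : Fin 9 → Fin d → ℂ) (β : Fin 16) :
    S.MJv k l X β = ∑ i, ∑ A, X i A • S.MJv k l (E1 i A) β := by
  have h : S.MJvL k l β X = ∑ i, ∑ A, X i A • S.MJvL k l β (E1 i A) := by
    conv_lhs => rw [X_eq_sum X]
    simp only [map_sum, map_smul]
  exact h

end CS

variable {F : Type*} [NormedAddCommGroup F] [InnerProductSpace ℂ F]

/-- complexified coordinates -/
def Xc (x : (Cfg d)) : Fin 9 → Fin d → ℂ := fun i A => (x (i, A) : ℂ)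

/-- an operator-valued linear multiplier -/
lemma pd_lin (T : Fin 9 → Fin d → (F →L[ℂ] F)) (u : (Cfg d) → F) (x : (Cfg d))
    (hu : DifferentiableAt ℝ u x) (i : Fin 9) (A : Fin d) :
    pd i A (fun y => (∑ j, ∑ B, Xc y j B • T j B) (u y)) x =
      T i A (u x) + (∑ j, ∑ B, Xc x j B • T j B) (pd i A u x) := by
  have hd : ∀ p : Fin 9 × Fin d, DifferentiableAt ℝ (fun y : (Cfg d) => y p) x := fun p =>
    (Setup.contDiff_coord p).differentiable (by simp) x
  have hfd : ∀ j B, fderiv ℝ (fun y : (Cfg d) => y (j, B)) x (EuclideanSpace.single (i, A) 1) =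
      if j = i ∧ B = A then (1:ℝ) else 0 := by
    intro j B
    have hL : (fun y : (Cfg d) => y (j, B)) = (EuclideanSpace.proj (𝕜 := ℝ) (j, B) : (Cfg d) →L[ℝ] ℝ) := rfl
    rw [hL, ContinuousLinearMap.fderiv]
    by_cases h : j = i ∧ B = A
    · simp [h]
    · have : ¬ ((j, B) : Fin 9 × Fin d) = (i, A) := by
        intro h'; exact h (by simpa [Prod.ext_iff] using h')
      simp [h, this]
  have hT : ∀ j B, DifferentiableAt ℝ (fun y => T j B (u y)) x := fun j B =>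
    ((T j B).restrictScalars ℝ).differentiableAt.comp x hu
  have h1 : (fun y => (∑ j, ∑ B, Xc y j B • T j B) (u y)) =
      fun y => ∑ j, ∑ B, ((y (j, B) : ℝ) : ℂ) • T j B (u y) := by
    funext y
    simp only [_root_.sum_apply, _root_.smul_apply, Xc]
  have hs : ∀ j B, DifferentiableAt ℝ (fun y : (Cfg d) => ((y (j, B) : ℝ) : ℂ) • T j B (u y)) x := by
    intro j B
    exact (Complex.ofRealCLM.differentiableAt.comp x (hd (j, B))).smul (hT j B)
  rw [h1, pd_sum _ fun j _ => DifferentiableAt.fun_sum fun B _ => hs j B]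
  have h2 : ∀ j, pd i A (fun y : (Cfg d) => ∑ B, ((y (j, B) : ℝ) : ℂ) • T j B (u y)) x =
      ∑ B, (((if j = i ∧ B = A then (1:ℝ) else 0 : ℝ) : ℂ) • T j B (u x) +
        Xc x j B • T j B (pd i A u x)) := by
    intro j
    rw [pd_sum _ fun B _ => hs j B]
    refine Finset.sum_congr rfl fun B _ => ?_
    rw [pd_rsmul (hd (j, B)) (hT j B), hfd, pd_clm _ hu, Xc]
  simp only [h2, Finset.sum_add_distrib, _root_.sum_apply, _root_.smul_apply]
  congr 1
  have h3 : ∀ j, ∑ B, (((if j = i ∧ B = A then (1:ℝ) else 0 : ℝ) : ℂ) • T j B (u x)) =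
      if j = i then T i A (u x) else 0 := by
    intro j
    by_cases h : j = i
    · subst h; simp
    · simp [h]
  rw [Finset.sum_congr rfl fun j _ => h3 j]
  simp

/-! ### the algebraic identities applied to vectors -/

namespace CS

variable (S : CS d (F →L[ℂ] F))

lemma PJ1_apply (k l : Fin 9) (X : Fin 9 → Fin d → ℂ) (i : Fin 9) (A : Fin d) (v : F) :
    ∑ β, S.vec (S.g i) A β (S.MJv k l X β v) =
      - ∑ β, S.MJv k l X β (S.vec (S.g i) A β v) +
      (112 * (X k A * (if i = l then 1 else 0) - X l A * (if i = k then 1 else 0))) • v := by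
  have h := congrArg (fun T : F →L[ℂ] F => T v) (S.PJ1 k l X i A)
  simp only [_root_.add_apply, _root_.smul_apply, _root_.sum_apply,
    mul_apply_eq_comp, _root_.neg_apply, one_apply_eq_self] at h
  exact h

lemma PJ2_apply (f : Fin d → Fin d → Fin d → ℝ) (κ : ℂ) (k l : Fin 9) (hkl : k ≠ l) (X : Fin 9 → Fin d → ℂ) (v : F) :
    (-Complex.I) • ∑ i, ∑ A, ∑ β, S.vec (S.g i) A β (S.MJv k l (E1 i A) β v) +
      ∑ β, S.Wv f κ X β (S.MJv k l X β v) + ∑ β, S.MJv k l X β (S.Wv f κ X β v) =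
    (112 : ℂ) • S.Sk k l v := by
  have h := congrArg (fun T : F →L[ℂ] F => T v) (S.PJ2 f κ k l hkl X)
  simp only [_root_.add_apply, _root_.smul_apply, _root_.sum_apply,
    mul_apply_eq_comp] at h
  exact h

end CS

namespace Setup

variable (S : Setup d F)

lemma FF_eq (A : Fin d) (i j : Fin 9) (x : (Cfg d)) :
    ((S.FF A i j x : ℝ) : ℂ) = CS.FFc S.f (S.κ : ℂ) (Xc x) A i j := by
  simp only [FF, CS.FFc, Xc, Complex.ofReal_mul, Complex.ofReal_sum]

lemma W_eqX (β : Fin 16) (x : (Cfg d)) : S.W β x = S.toCS.Wv S.f (S.κ : ℂ) (Xc x) β := by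
  ext v
  simp only [W, CS.Wv, FF_eq, _root_.sum_apply, _root_.smul_apply]

lemma Skl_eq (k l : Fin 9) : S.Skl k l = S.toCS.Sk k l := by
  ext v
  simp only [Skl, CS.Sk, _root_.smul_apply]

lemma cS_eq (C : Fin d) : S.cS C = S.toCS.sG S.f C := by
  ext v
  simp only [cS, CS.sG, _root_.sum_apply, _root_.smul_apply]

lemma sum3_smul (f : Fin 9 → Fin d → Fin 16 → F) : ∑ β, (-Complex.I) • ∑ i, ∑ A, f i A β =
    (-Complex.I) • ∑ i, ∑ A, ∑ β, f i A β := by
  rw [← Finset.smul_sum, Finset.sum_comm]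
  congr 1
  refine Finset.sum_congr rfl fun i _ => ?_
  rw [Finset.sum_comm]

lemma Q_eq (β : Fin 16) (u : (Cfg d) → F) (x : (Cfg d)) : S.Q β u x =
    (-Complex.I) • ∑ i, ∑ A, S.vec (S.g i) A β (pd i A u x) +
      S.toCS.Wv S.f (S.κ : ℂ) (Xc x) β (u x) := by
  rw [Q, W_eqX]

lemma clm_Q (T : F →L[ℂ] F) (β : Fin 16) (u : (Cfg d) → F) (x : (Cfg d)) : T (S.Q β u x) =
    (-Complex.I) • ∑ i, ∑ A, T (S.vec (S.g i) A β (pd i A u x)) +
      T (S.toCS.Wv S.f (S.κ : ℂ) (Xc x) β (u x)) := by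
  rw [Q_eq, map_add, map_smul, map_sum]
  simp only [map_sum]

/-- the multiplier for `J_{kl}` -/
noncomputable def MJ (k l : Fin 9) (β : Fin 16) (x : (Cfg d)) : F →L[ℂ] F :=
  (9 : ℂ) • (∑ A, ((x (k, A) : ℂ) • S.vec (S.g l) A β - (x (l, A) : ℂ) • S.vec (S.g k) A β))
    + (2 : ℂ) • ∑ j, ∑ A, (x (j, A) : ℂ) • S.vec (S.g2 k l * S.g j) A β

lemma MJ_eq (k l : Fin 9) (β : Fin 16) (x : (Cfg d)) : S.MJ k l β x = S.toCS.MJv k l (Xc x) β := by
  ext v
  simp only [MJ, CS.MJv, Xc, _root_.sum_apply, _root_.smul_apply, _root_.add_apply,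
    _root_.sub_apply]

lemma pd_MJ (k l : Fin 9) (u : (Cfg d) → F) (x : (Cfg d)) (hu : DifferentiableAt ℝ u x) (β : Fin 16)
    (i : Fin 9) (A : Fin d) : pd i A (fun y => S.MJ k l β y (u y)) x =
      S.toCS.MJv k l (E1 i A) β (u x) + S.toCS.MJv k l (Xc x) β (pd i A u x) := by
  have hS : ∀ X : Fin 9 → Fin d → ℂ, ∀ v, S.toCS.MJv k l X β v =
      (∑ j, ∑ B, X j B • S.toCS.MJv k l (E1 j B) β) v := by
    intro X v
    have h := congrArg (fun T : F →L[ℂ] F => T v) (S.toCS.MJv_eq_sum k l X β)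
    simp only [_root_.sum_apply, _root_.smul_apply] at h ⊢
    exact h
  have hM : (fun y => S.MJ k l β y (u y)) =
      fun y => (∑ j, ∑ B, Xc y j B • S.toCS.MJv k l (E1 j B) β) (u y) := by
    funext y
    rw [MJ_eq, hS]
  rw [hM, pd_lin _ _ _ hu, ← hS]

lemma MJ_L (k l : Fin 9) (u : (Cfg d) → F) (x : (Cfg d)) (hu : DifferentiableAt ℝ u x) :
    ∑ β, S.Q β (fun y => S.MJ k l β y (u y)) x =
      ((-Complex.I) • ∑ i, ∑ A, ∑ β, S.vec (S.g i) A β (S.toCS.MJv k l (E1 i A) β (u x)) +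
        ∑ β, S.toCS.Wv S.f (S.κ : ℂ) (Xc x) β (S.toCS.MJv k l (Xc x) β (u x))) +
      (-Complex.I) • ∑ i, ∑ A, ∑ β, S.vec (S.g i) A β (S.toCS.MJv k l (Xc x) β
        (pd i A u x)) := by
  have e0 : ∀ β, S.Q β (fun y => S.MJ k l β y (u y)) x = (-Complex.I) • ∑ i, ∑ A,
      S.vec (S.g i) A β (S.toCS.MJv k l (E1 i A) β (u x)) +
      (-Complex.I) • ∑ i, ∑ A, S.vec (S.g i) A β (S.toCS.MJv k l (Xc x) β (pd i A u x)) +
      S.toCS.Wv S.f (S.κ : ℂ) (Xc x) β (S.toCS.MJv k l (Xc x) β (u x)) := by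
    intro β
    rw [Q]
    simp only [S.pd_MJ k l u x hu]
    simp only [map_add, Finset.sum_add_distrib, smul_add, W_eqX, MJ_eq]
  rw [Finset.sum_congr rfl fun β _ => e0 β, Finset.sum_add_distrib, Finset.sum_add_distrib,
    sum3_smul, sum3_smul]
  exact add_right_comm _ _ _

lemma MJ_R (k l : Fin 9) (u : (Cfg d) → F) (x : (Cfg d)) :
    ∑ β, S.MJ k l β x (S.Q β u x) =
      (∑ β, S.toCS.MJv k l (Xc x) β (S.toCS.Wv S.f (S.κ : ℂ) (Xc x) β (u x))) +
      (-Complex.I) • ∑ i, ∑ A, ∑ β, S.toCS.MJv k l (Xc x) β (S.vec (S.g i) A β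
        (pd i A u x)) := by
  have e0 : ∀ β, S.MJ k l β x (S.Q β u x) = (-Complex.I) • ∑ i, ∑ A,
      S.toCS.MJv k l (Xc x) β (S.vec (S.g i) A β (pd i A u x)) +
      S.toCS.MJv k l (Xc x) β (S.toCS.Wv S.f (S.κ : ℂ) (Xc x) β (u x)) := by
    intro β
    rw [clm_Q, MJ_eq]
  rw [Finset.sum_congr rfl fun β _ => e0 β, Finset.sum_add_distrib, sum3_smul, add_comm]

theorem J_exact (k l : Fin 9) (hkl : k ≠ l) (u : (Cfg d) → F) (x : (Cfg d))
    (hu : DifferentiableAt ℝ u x) :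
    (112 : ℂ) • S.J k l u x = ∑ β, S.Q β (fun y => S.MJ k l β y (u y)) x +
      ∑ β, S.MJ k l β x (S.Q β u x) := by
  rw [S.MJ_L k l u x hu, S.MJ_R]
  have h2 := S.toCS.PJ2_apply S.f (S.κ : ℂ) k l hkl (Xc x) (u x)
  have h3 : ∑ i, ∑ A, ∑ β, S.vec (S.g i) A β (S.toCS.MJv k l (Xc x) β (pd i A u x)) =
      -∑ i, ∑ A, ∑ β, S.toCS.MJv k l (Xc x) β (S.vec (S.g i) A β (pd i A u x)) +
      (112 : ℂ) • ∑ A, (Xc x k A • pd l A u x - Xc x l A • pd k A u x) := by
    have e1 : ∀ i A, ∑ β, S.vec (S.g i) A β (S.toCS.MJv k l (Xc x) β (pd i A u x)) =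
      - ∑ β, S.toCS.MJv k l (Xc x) β (S.vec (S.g i) A β (pd i A u x)) +
      (112 * (Xc x k A * (if i = l then 1 else 0) - Xc x l A * (if i = k then 1 else 0))) •
        pd i A u x := fun i A => S.toCS.PJ1_apply k l (Xc x) i A (pd i A u x)
    simp only [e1, Finset.sum_add_distrib, Finset.sum_neg_distrib]
    congr 1
    rw [Finset.sum_comm, Finset.smul_sum]
    refine Finset.sum_congr rfl fun A _ => ?_
    have : ∀ i, (112 * (Xc x k A * (if i = l then 1 else 0) -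
        Xc x l A * (if i = k then 1 else 0))) • pd i A u x =
        (if i = l then (112 * Xc x k A) • pd i A u x else 0) -
        (if i = k then (112 * Xc x l A) • pd i A u x else 0) := by
      intro i
      by_cases h1 : i = l
      · subst h1; simp [Ne.symm hkl]
      · by_cases h2 : i = k
        · subst h2; simp [hkl]
        · simp [h1, h2]
    simp only [this, Finset.sum_sub_distrib, Finset.sum_ite_eq', Finset.mem_univ, if_true]
    module
  rw [h3]
  have h4 : (112 : ℂ) • S.J k l u x = (112 : ℂ) • S.toCS.Sk k l (u x) +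
      (-Complex.I) • (112 : ℂ) • ∑ A, (Xc x k A • pd l A u x - Xc x l A • pd k A u x) := by
    simp only [J, Skl_eq, Xc, smul_add]
    rw [smul_comm (112 : ℂ) (-Complex.I)]
    exact add_comm _ _
  rw [h4, ← h2]
  generalize (-Complex.I) • ∑ i, ∑ A, ∑ β, S.vec (S.g i) A β
    (S.toCS.MJv k l (E1 i A) β (u x)) = a1
  generalize ∑ β, S.toCS.Wv S.f (S.κ : ℂ) (Xc x) β (S.toCS.MJv k l (Xc x) β (u x)) = a2
  generalize ∑ β, S.toCS.MJv k l (Xc x) β (S.toCS.Wv S.f (S.κ : ℂ) (Xc x) β (u x)) = a3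
  generalize ∑ i, ∑ A, ∑ β, S.toCS.MJv k l (Xc x) β (S.vec (S.g i) A β (pd i A u x)) = a4
  generalize ∑ A, (Xc x k A • pd l A u x - Xc x l A • pd k A u x) = a5
  module

end Setup
end Vale.Agent.P353.Z
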