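import Vale.Agent.P353.Z.Ana
import Vale.Agent.P353.Z.Gam

open MeasureTheory Filter Topology
open scoped ContDiff

namespace Vale.Agent.P353.Z

variable {d : ℕ}

variable {F : Type*} [NormedAddCommGroup F] [InnerProductSpace ℂ F]

lemma pd_comm {d : ℕ} {u : Cfg d → F} (hu : ContDiff ℝ ∞ u) (i j : Fin 9) (A B : Fin d)
    (x : Cfg d) : pd i A (pd j B u) x = pd j B (pd i A u) x := by
  have hs : IsSymmSndFDerivAt ℝ u x := by
    refine (hu.contDiffAt).isSymmSndFDerivAt ?_
    simp only [minSmoothness_of_isRCLikeNormedField]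
    exact WithTop.coe_le_coe.mpr le_top
  have hd : Differentiable ℝ (fderiv ℝ u) := (hu.fderiv_right (m := ∞) (by simp)).differentiable
    (by simp)
  have h : ∀ (a b : Cfg d), fderiv ℝ (fun y => fderiv ℝ u y a) x b = fderiv ℝ (fderiv ℝ u) x b a := by
    intro a b
    rw [fderiv_clm_apply (hd x) (differentiableAt_const a)]
    simp
  unfold pd
  rw [h, h]
  exact hs _ _

namespace Setup

variable (S : Setup d F)

lemma hasFDerivAt_coord (p : Fin 9 × Fin d) (x : (Cfg d)) :
    HasFDerivAt (fun y : (Cfg d) => y p) (EuclideanSpace.proj (𝕜 := ℝ) p : (Cfg d) →L[ℝ] ℝ) x :=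
  (EuclideanSpace.proj (𝕜 := ℝ) p : (Cfg d) →L[ℝ] ℝ).hasFDerivAt

lemma fderiv_FF (A : Fin d) (k l : Fin 9) (x : (Cfg d)) (j : Fin 9) (B : Fin d) :
    fderiv ℝ (S.FF A k l) x (EuclideanSpace.single (j, B) (1 : ℝ)) =
      S.κ * ((if j = k then ∑ D, S.f A B D * x (l, D) else 0)
        + (if j = l then ∑ C, S.f A C B * x (k, C) else 0)) := by
  have hd : HasFDerivAt (S.FF A k l) (S.κ • ∑ C, ∑ D, (S.f A C D • (x (k, C) •
      (EuclideanSpace.proj (𝕜 := ℝ) (l, D) : (Cfg d) →L[ℝ] ℝ) + x (l, D) •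
      (EuclideanSpace.proj (𝕜 := ℝ) (k, C) : (Cfg d) →L[ℝ] ℝ)))) x := by
    unfold FF
    refine HasFDerivAt.const_mul ?_ _
    refine HasFDerivAt.fun_sum fun C _ => HasFDerivAt.fun_sum fun D _ => ?_
    have h := ((hasFDerivAt_coord (k, C) x).mul (hasFDerivAt_coord (l, D) x)).const_mul
      (S.f A C D)
    refine h.congr_of_eventuallyEq ?_
    filter_upwards with y
    simp [mul_assoc]
  rw [hd.fderiv]
  simp only [_root_.smul_apply, _root_.sum_apply, _root_.add_apply, PiLp.proj_apply,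
    PiLp.single_apply, smul_eq_mul, Prod.mk.injEq, mul_ite, mul_one, mul_zero]
  congr 1
  simp only [mul_add, Finset.sum_add_distrib, mul_ite, mul_zero]
  rw [add_comm]
  congr 1
  · by_cases h : j = k
    · subst h
      simp only [true_and, if_true]
      rw [Finset.sum_comm]
      simp
    · have h' : ¬ k = j := fun h2 => h h2.symm
      simp [h, h']
  · by_cases h : j = l
    · subst h
      simp only [true_and, if_true]
      simp
    · have h' : ¬ l = j := fun h2 => h h2.symm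
      simp [h, h']

lemma fderiv_W (b : Fin 16) (x : (Cfg d)) (j : Fin 9) (B : Fin d) :
    fderiv ℝ (S.W b) x (EuclideanSpace.single (j, B) (1 : ℝ)) =
      (S.κ : ℂ) • ∑ A, ∑ l, ∑ D, ((S.f A B D : ℂ) * (x (l, D) : ℂ)) • S.vec (S.g2 j l) A b := by
  have hFF : ∀ A k l, DifferentiableAt ℝ (S.FF A k l) x := fun A k l =>
    (S.contDiff_FF A k l).differentiable (by simp) x
  have hd : HasFDerivAt (S.W b) ((1 / 2 : ℂ) • ∑ A, ∑ k, ∑ l,
      ((Complex.ofRealCLM.comp (fderiv ℝ (S.FF A k l) x)).smulRight (S.vec (S.g2 k l) A b))) x := by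
    have h0 : HasFDerivAt (fun y => ∑ A, ∑ k, ∑ l, ((S.FF A k l y : ℝ) : ℂ) •
        S.vec (S.g2 k l) A b) (∑ A, ∑ k, ∑ l,
      ((Complex.ofRealCLM.comp (fderiv ℝ (S.FF A k l) x)).smulRight (S.vec (S.g2 k l) A b))) x := by
      refine HasFDerivAt.fun_sum fun A _ => HasFDerivAt.fun_sum fun k _ =>
        HasFDerivAt.fun_sum fun l _ => ?_
      have h1 := (Complex.ofRealCLM.hasFDerivAt (x := S.FF A k l x)).comp x (hFF A k l).hasFDerivAt
      exact h1.smul_const (S.vec (S.g2 k l) A b)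
    have h1 := h0.const_smul (1 / 2 : ℂ)
    refine h1.congr_of_eventuallyEq (Filter.Eventually.of_forall fun y => ?_)
    simp only [W, Pi.smul_apply]
  rw [hd.fderiv]
  simp only [_root_.smul_apply, _root_.sum_apply, ContinuousLinearMap.smulRight_apply,
    ContinuousLinearMap.comp_apply, Complex.ofRealCLM_apply, fderiv_FF]
  have key : ∀ A, ∑ k, ∑ l, (((S.κ * ((if j = k then ∑ D, S.f A B D * x (l, D) else 0)
        + (if j = l then ∑ C, S.f A C B * x (k, C) else 0)) : ℝ)) : ℂ) •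
        S.vec (S.g2 k l) A b = (2 * S.κ : ℂ) • ∑ l, ∑ D, ((S.f A B D : ℂ) * (x (l, D) : ℂ)) •
          S.vec (S.g2 j l) A b := by
    intro A
    have he : ∀ C : Fin d, S.f A C B = - S.f A B C := fun C => S.f_swap' A B C
    simp only [mul_add, Complex.ofReal_add, add_smul, Finset.sum_add_distrib]
    have p1 : ∑ k, ∑ l, (((S.κ * (if j = k then ∑ D, S.f A B D * x (l, D) else 0) : ℝ)) : ℂ) •
        S.vec (S.g2 k l) A b = (S.κ : ℂ) • ∑ l, ∑ D, ((S.f A B D : ℂ) * (x (l, D) : ℂ)) •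
          S.vec (S.g2 j l) A b := by
      rw [Finset.sum_eq_single j]
      · simp only [if_true, Finset.smul_sum, smul_smul]
        refine Finset.sum_congr rfl fun l _ => ?_
        rw [← Finset.sum_smul]
        congr 1
        push_cast
        rw [Finset.mul_sum]
      · intro k _ hk
        have : ¬ j = k := fun h => hk h.symm
        simp [this]
      · intro h; exact absurd (Finset.mem_univ j) h
    have p2 : ∑ k, ∑ l, (((S.κ * (if j = l then ∑ C, S.f A C B * x (k, C) else 0) : ℝ)) : ℂ) •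
        S.vec (S.g2 k l) A b = (S.κ : ℂ) • ∑ l, ∑ D, ((S.f A B D : ℂ) * (x (l, D) : ℂ)) •
          S.vec (S.g2 j l) A b := by
      rw [Finset.sum_comm, Finset.sum_eq_single j]
      · simp only [if_true, Finset.smul_sum, smul_smul]
        refine Finset.sum_congr rfl fun l _ => ?_
        rw [← Finset.sum_smul, S.g2_swap l j, S.vec_neg, smul_neg, ← neg_smul]
        congr 1
        simp only [he]
        push_cast
        rw [Finset.mul_sum, ← Finset.sum_neg_distrib]
        refine Finset.sum_congr rfl fun D _ => ?_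
        ring
      · intro k _ hk
        have : ¬ j = k := fun h => hk h.symm
        simp [this]
      · intro h; exact absurd (Finset.mem_univ j) h
    rw [p1, p2, mul_smul, two_smul]
  rw [Finset.sum_congr rfl fun A _ => key A, ← Finset.smul_sum, smul_smul]
  congr 1
  ring

lemma pd_Q (b : Fin 16) {u : (Cfg d) → F} (hu : ContDiff ℝ ∞ u) (j : Fin 9) (B : Fin d) (x : (Cfg d)) :
    pd j B (S.Q b u) x = (-Complex.I) • ∑ i, ∑ A, S.vec (S.g i) A b (pd j B (pd i A u) x)
      + (fderiv ℝ (S.W b) x (EuclideanSpace.single (j, B) (1 : ℝ))) (u x)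
      + S.W b x (pd j B u x) := by
  have hd : ∀ i A, DifferentiableAt ℝ (pd i A u) x := fun i A =>
    (contDiff_pd hu).differentiable (by simp) x
  have hdv : ∀ i A, DifferentiableAt ℝ (fun y => S.vec (S.g i) A b (pd i A u y)) x := fun i A =>
    ((S.vec (S.g i) A b).restrictScalars ℝ).differentiableAt.comp x (hd i A)
  have hWd : DifferentiableAt ℝ (S.W b) x := (S.contDiff_W b).differentiable (by simp) x
  have hud : DifferentiableAt ℝ u x := hu.differentiable (by simp) x
  have h1 : DifferentiableAt ℝ (fun y => (-Complex.I) • ∑ i, ∑ A, S.vec (S.g i) A b (pd i A u y)) x := by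
    refine DifferentiableAt.const_smul ?_ _
    refine DifferentiableAt.fun_sum fun i _ => DifferentiableAt.fun_sum fun A _ => hdv i A
  have h2 : DifferentiableAt ℝ (fun y => S.W b y (u y)) x :=
    (contDiff_clm_apply' (S.contDiff_W b) hu).differentiable (by simp) x
  have e : S.Q b u = fun y => (-Complex.I) • ∑ i, ∑ A, S.vec (S.g i) A b (pd i A u y)
      + S.W b y (u y) := rfl
  rw [e, pd_add h1 h2, pd_clm_apply hWd hud, ← add_assoc]
  congr 2
  have h3 : pd j B (fun y => (-Complex.I) • ∑ i, ∑ A, S.vec (S.g i) A b (pd i A u y)) x =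
      (-Complex.I) • pd j B (fun y => ∑ i, ∑ A, S.vec (S.g i) A b (pd i A u y)) x := by
    unfold pd
    rw [fderiv_fun_const_smul]
    · rfl
    · exact DifferentiableAt.fun_sum fun i _ => DifferentiableAt.fun_sum fun A _ => hdv i A
  rw [h3]
  congr 1
  rw [pd_sum _ (fun i _ => DifferentiableAt.fun_sum fun A _ => hdv i A)]
  refine Finset.sum_congr rfl fun i _ => ?_
  rw [pd_sum _ (fun A _ => hdv i A)]
  refine Finset.sum_congr rfl fun A _ => ?_
  rw [pd_clm _ (hd i A)]

/-- the second order part -/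
lemma second_order (D : Fin 9 → Fin d → Fin 9 → Fin d → F)
    (hD : ∀ i A j B, D i A j B = D j B i A) :
    ∑ b, ∑ j, ∑ B, ∑ i, ∑ A, S.vec (S.g j) B b (S.vec (S.g i) A b (D j B i A)) =
      (8 : ℂ) • ∑ i, ∑ A, D i A i A := by
  have h1 : ∑ b, ∑ j, ∑ B, ∑ i, ∑ A, S.vec (S.g j) B b (S.vec (S.g i) A b (D j B i A)) =
      ∑ j, ∑ B, ∑ i, ∑ A, S.bil (S.g j * S.g i) B A (D j B i A) := by
    rw [Finset.sum_comm]
    refine Finset.sum_congr rfl fun j _ => ?_
    rw [Finset.sum_comm]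
    refine Finset.sum_congr rfl fun B _ => ?_
    rw [Finset.sum_comm]
    refine Finset.sum_congr rfl fun i _ => ?_
    rw [Finset.sum_comm]
    refine Finset.sum_congr rfl fun A _ => ?_
    have h := S.sum_vec_mul_vec (S.g j) (S.g i) B A
    rw [S.g_symm] at h
    rw [← h]
    simp only [_root_.sum_apply]
    rfl
  have h2 : ∑ j, ∑ B, ∑ i, ∑ A, S.bil (S.g j * S.g i) B A (D j B i A) =
      ∑ j, ∑ B, ∑ i, ∑ A, S.bil (S.g i * S.g j) A B (D j B i A) := by
    have e1 : ∀ (f : Fin 9 → Fin d → Fin 9 → Fin d → F), ∑ j, ∑ B, ∑ i, ∑ A, f j B i A =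
        ∑ p : Fin 9 × Fin d, ∑ q : Fin 9 × Fin d, f p.1 p.2 q.1 q.2 := by
      intro f
      simp only [Fintype.sum_prod_type]
    rw [e1 (fun j B i A => S.bil (S.g j * S.g i) B A (D j B i A)),
      e1 (fun j B i A => S.bil (S.g i * S.g j) A B (D j B i A)), Finset.sum_comm]
    refine Finset.sum_congr rfl fun p _ => Finset.sum_congr rfl fun q _ => ?_
    rw [hD]
  have h3 : ∀ j B i A, S.bil (S.g j * S.g i) B A + S.bil (S.g i * S.g j) A B =
      (if B = A then (if j = i then (16 : ℂ) else 0) else 0) • (1 : F →L[ℂ] F) := by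
    intro j B i A
    rw [S.bil_swap (S.g j * S.g i) B A]
    have : (S.g j * S.g i).transpose = S.g i * S.g j := by
      rw [Matrix.transpose_mul, S.g_symm, S.g_symm]
    rw [this, S.trace_g_g]
    by_cases h : B = A <;> simp [h]
  have h4 : (2 : ℂ) • ∑ j, ∑ B, ∑ i, ∑ A, S.bil (S.g j * S.g i) B A (D j B i A) =
      (16 : ℂ) • ∑ i, ∑ A, D i A i A := by
    rw [two_smul]
    nth_rewrite 2 [h2]
    simp only [← Finset.sum_add_distrib, ← _root_.add_apply, h3]
    simp only [ite_smul, zero_smul, Finset.smul_sum]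
    refine Finset.sum_congr rfl fun i _ => Finset.sum_congr rfl fun A _ => ?_
    rw [Finset.sum_eq_single i, Finset.sum_eq_single A]
    · simp
    · intro B _ hB; simp [Ne.symm hB]
    · intro h; exact absurd (Finset.mem_univ _) h
    · intro k _ hk
      refine Finset.sum_eq_zero fun B _ => ?_
      simp [Ne.symm hk]
    · intro h; exact absurd (Finset.mem_univ _) h
  rw [h1]
  have h5 := congrArg (fun w => (1 / 2 : ℂ) • w) h4
  simp only [smul_smul] at h5
  norm_num at h5
  exact h5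

lemma FF_swap (A : Fin d) (i j : Fin 9) (x : (Cfg d)) : S.FF A i j x = - S.FF A j i x := by
  unfold FF
  rw [← mul_neg, ← Finset.sum_neg_distrib, Finset.sum_comm]
  congr 1
  refine Finset.sum_congr rfl fun B _ => ?_
  rw [← Finset.sum_neg_distrib]
  refine Finset.sum_congr rfl fun C _ => ?_
  have he : S.f A C B = - S.f A B C := S.f_swap' A B C
  rw [he]
  push_cast
  ring

/-- the matrix `(1/2) F^A_{ij} γ^{ij}` -/
noncomputable def NA (A : Fin d) (x : (Cfg d)) : Matrix (Fin 16) (Fin 16) ℂ :=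
  (1 / 2 : ℂ) • ∑ i, ∑ j, ((S.FF A i j x : ℝ) : ℂ) • S.g2 i j

lemma W_eq_NA (b : Fin 16) (x : (Cfg d)) : S.W b x = ∑ A, S.vec (S.NA A x) A b := by
  simp only [W, NA, S.vec_smul, S.vec_sum, Finset.smul_sum]

lemma NA_transpose (A : Fin d) (x : (Cfg d)) : (S.NA A x).transpose = - S.NA A x := by
  simp only [NA, Matrix.transpose_smul, Matrix.transpose_sum, S.g2_transpose', smul_neg,
    Finset.sum_neg_distrib]

lemma trace_g_NA (j : Fin 9) (A : Fin d) (x : (Cfg d)) : (S.g j * S.NA A x).trace = 0 := by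
  simp only [NA, Matrix.mul_smul, Matrix.mul_sum, Matrix.trace_smul, Matrix.trace_sum,
    S.trace_g_g2E, smul_zero, Finset.sum_const_zero]

lemma first_order (j : Fin 9) (B : Fin d) (x : (Cfg d)) :
    ∑ b, (S.vec (S.g j) B b * S.W b x + S.W b x * S.vec (S.g j) B b) = 0 := by
  have h : ∀ b, S.vec (S.g j) B b * S.W b x + S.W b x * S.vec (S.g j) B b =
      ∑ A, (if B = A then ((S.g j * (S.NA A x).transpose) b b) • (1 : F →L[ℂ] F) else 0) := by
    intro b
    rw [W_eq_NA, Finset.mul_sum, Finset.sum_mul, ← Finset.sum_add_distrib]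
    simp only [S.vec_anti]
  simp only [h]
  rw [Finset.sum_comm]
  refine Finset.sum_eq_zero fun A _ => ?_
  by_cases hA : B = A
  · simp only [hA, if_true, ← Finset.sum_smul]
    have h3 : ∑ b, (S.g j * (S.NA A x).transpose) b b = (S.g j * (S.NA A x).transpose).trace := rfl
    rw [h3, NA_transpose, Matrix.mul_neg, Matrix.trace_neg, S.trace_g_NA]
    simp
  · simp [hA]

lemma trace_NA_NA (A : Fin d) (x : (Cfg d)) :
    (S.NA A x * S.NA A x).trace = ((-8 * ∑ i, ∑ j, (S.FF A i j x) ^ 2 : ℝ) : ℂ) := by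
  have h1 : (S.NA A x * S.NA A x).trace = (1 / 4 : ℂ) * ∑ i, ∑ j, ∑ k, ∑ l,
      ((S.FF A i j x : ℝ) : ℂ) * ((S.FF A k l x : ℝ) : ℂ) * (S.g2 i j * S.g2 k l).trace := by
    simp only [NA, smul_mul_smul_comm, Matrix.trace_smul, Matrix.sum_mul, smul_eq_mul,
      Matrix.trace_sum]
    simp only [Matrix.mul_sum, Matrix.smul_mul, Matrix.mul_smul, Matrix.trace_smul, smul_eq_mul,
      Matrix.trace_sum]
    rw [show (1 / 2 : ℂ) * (1 / 2) = 1 / 4 by norm_num]
    congr 1
    refine Finset.sum_congr rfl fun i _ => Finset.sum_congr rfl fun j _ =>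
      Finset.sum_congr rfl fun k _ => Finset.sum_congr rfl fun l _ => ?_
    ring
  have h2 : ∀ i j, ∑ k, ∑ l,
      ((S.FF A i j x : ℝ) : ℂ) * ((S.FF A k l x : ℝ) : ℂ) * (S.g2 i j * S.g2 k l).trace =
      - 32 * ((S.FF A i j x : ℝ) : ℂ) ^ 2 := by
    intro i j
    simp only [S.trace_g2_g2, mul_sub, Finset.sum_sub_distrib]
    rw [Finset.sum_eq_single j, Finset.sum_eq_single i, Finset.sum_eq_single i,
      Finset.sum_eq_single j]
    · rw [S.FF_swap A j i x]
      simp only [if_true]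
      push_cast
      ring
    · intro l _ hl; simp [Ne.symm hl]
    · intro h; exact absurd (Finset.mem_univ _) h
    · intro k _ hk
      refine Finset.sum_eq_zero fun l _ => ?_
      simp [Ne.symm hk]
    · intro h; exact absurd (Finset.mem_univ _) h
    · intro l _ hl; simp [Ne.symm hl]
    · intro h; exact absurd (Finset.mem_univ _) h
    · intro k _ hk
      refine Finset.sum_eq_zero fun l _ => ?_
      simp [Ne.symm hk]
    · intro h; exact absurd (Finset.mem_univ _) h
  rw [h1]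
  simp only [h2, ← Finset.mul_sum]
  push_cast
  ring

lemma zero_order (x : (Cfg d)) :
    ∑ b, S.W b x * S.W b x = ((16 * S.V x : ℝ) : ℂ) • (1 : F →L[ℂ] F) := by
  have h1 : ∑ b, S.W b x * S.W b x = ∑ A, ∑ B,
        S.bil ((S.NA A x).transpose * S.NA B x) A B := by
    simp only [W_eq_NA, Finset.sum_mul_sum, ← S.sum_vec_mul_vec]
    rw [Finset.sum_comm]
    refine Finset.sum_congr rfl fun A _ => ?_
    rw [Finset.sum_comm]
  have h2 : ∑ A, ∑ B, S.bil ((S.NA A x).transpose * S.NA B x) A B = ∑ A, ∑ B,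
      S.bil ((S.NA B x).transpose * S.NA A x) B A := Finset.sum_comm
  have h3 : ∀ A B, S.bil ((S.NA A x).transpose * S.NA B x) A B +
      S.bil ((S.NA B x).transpose * S.NA A x) B A = if A = B then
        (((8 * ∑ i, ∑ j, (S.FF A i j x) ^ 2 : ℝ) : ℂ)) • (1 : F →L[ℂ] F) else 0 := by
    intro A B
    rw [S.bil_swap ((S.NA A x).transpose * S.NA B x) A B]
    have : ((S.NA A x).transpose * S.NA B x).transpose = (S.NA B x).transpose * S.NA A x := by
      rw [Matrix.transpose_mul, Matrix.transpose_transpose]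
    rw [this]
    by_cases h : A = B
    · subst h
      simp only [if_true, sub_add_cancel]
      rw [S.NA_transpose, Matrix.neg_mul, Matrix.trace_neg, S.trace_NA_NA]
      congr 1
      push_cast
      ring
    · simp [h]
  have h4 : (2 : ℂ) • ∑ A, ∑ B, S.bil ((S.NA A x).transpose * S.NA B x) A B =
      ∑ A, (((8 * ∑ i, ∑ j, (S.FF A i j x) ^ 2 : ℝ) : ℂ)) • (1 : F →L[ℂ] F) := by
    rw [two_smul]
    nth_rewrite 2 [h2]
    simp only [← Finset.sum_add_distrib, h3]
    simp
  rw [h1]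
  have h5 := congrArg (fun w => (1 / 2 : ℂ) • w) h4
  simp only [smul_smul] at h5
  norm_num at h5
  rw [h5, ← Finset.sum_smul, smul_smul]
  congr 1
  simp only [V]
  push_cast
  rw [← Finset.mul_sum]
  ring

lemma ferm_order (x : (Cfg d)) :
    (-Complex.I) • ∑ b, ∑ j, ∑ B, S.vec (S.g j) B b *
      (fderiv ℝ (S.W b) x (EuclideanSpace.single (j, B) (1 : ℝ))) = (16 : ℂ) • S.Fx x := by
  have e1 : ∀ (j : Fin 9) (l : Fin 9) (B A : Fin d), S.bil (S.g j * S.g2 j l) B A =
      ∑ b, S.vec (S.g j) B b * S.vec (S.g2 j l) A b := by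
    intro j l B A
    rw [S.sum_vec_mul_vec, S.g_symm]
  have h1 : ∑ b, ∑ j, ∑ B, S.vec (S.g j) B b *
      (fderiv ℝ (S.W b) x (EuclideanSpace.single (j, B) (1 : ℝ))) =
      ∑ B, ∑ j, (S.κ : ℂ) • ∑ A, ∑ l, ∑ D, ((S.f A B D : ℂ) * (x (l, D) : ℂ)) •
        S.bil (S.g j * S.g2 j l) B A := by
    rw [Finset.sum_comm]
    have : ∀ j, ∑ b, ∑ B, S.vec (S.g j) B b *
        (fderiv ℝ (S.W b) x (EuclideanSpace.single (j, B) (1 : ℝ))) = ∑ B,
        (S.κ : ℂ) • ∑ A, ∑ l, ∑ D, ((S.f A B D : ℂ) * (x (l, D) : ℂ)) •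
        S.bil (S.g j * S.g2 j l) B A := by
      intro j
      rw [Finset.sum_comm]
      refine Finset.sum_congr rfl fun B _ => ?_
      simp only [fderiv_W, mul_smul_comm, ← Finset.smul_sum, Finset.mul_sum]
      congr 1
      rw [Finset.sum_comm]
      refine Finset.sum_congr rfl fun A _ => ?_
      rw [Finset.sum_comm]
      refine Finset.sum_congr rfl fun l _ => ?_
      rw [Finset.sum_comm]
      refine Finset.sum_congr rfl fun D _ => ?_
      rw [e1, Finset.smul_sum]
    simp only [this]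
    rw [Finset.sum_comm]
  have h2 : ∀ B, ∑ j, (S.κ : ℂ) • ∑ A, ∑ l, ∑ D, ((S.f A B D : ℂ) * (x (l, D) : ℂ)) •
        S.bil (S.g j * S.g2 j l) B A = (8 * S.κ : ℂ) • ∑ A, ∑ l, ∑ D,
        ((S.f A B D : ℂ) * (x (l, D) : ℂ)) • S.bil (S.g l) B A := by
    intro B
    rw [← Finset.smul_sum, mul_comm (8 : ℂ), mul_smul]
    congr 1
    rw [Finset.sum_comm, Finset.smul_sum]
    refine Finset.sum_congr rfl fun A _ => ?_
    rw [Finset.sum_comm, Finset.smul_sum]
    refine Finset.sum_congr rfl fun l _ => ?_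
    rw [Finset.sum_comm, Finset.smul_sum]
    refine Finset.sum_congr rfl fun D _ => ?_
    rw [← Finset.smul_sum, ← S.bil_sum, S.sum_g_g2, S.bil_smul, smul_comm]
  rw [h1]
  simp only [h2, ← Finset.smul_sum]
  rw [Fx, smul_smul, smul_smul]
  have h3 : ∑ B, ∑ A, ∑ l, ∑ D, ((S.f A B D : ℂ) * (x (l, D) : ℂ)) • S.bil (S.g l) B A =
      - ∑ q, ∑ A, ∑ B, ∑ C, ((S.f A B C : ℂ) * (x (q, C) : ℂ)) • S.bil (S.g q) A B := by
    have he : ∀ A B C : Fin d, S.f A B C = - S.f B A C := S.f_swap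
    rw [← Finset.sum_neg_distrib]
    calc _ = ∑ B, ∑ l, ∑ A, ∑ D, ((S.f A B D : ℂ) * (x (l, D) : ℂ)) • S.bil (S.g l) B A := by
          refine Finset.sum_congr rfl fun B _ => ?_
          rw [Finset.sum_comm]
      _ = ∑ l, ∑ B, ∑ A, ∑ D, ((S.f A B D : ℂ) * (x (l, D) : ℂ)) • S.bil (S.g l) B A := by
          rw [Finset.sum_comm]
      _ = _ := by
          refine Finset.sum_congr rfl fun l _ => ?_
          rw [← Finset.sum_neg_distrib]
          refine Finset.sum_congr rfl fun A _ => ?_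
          rw [← Finset.sum_neg_distrib]
          refine Finset.sum_congr rfl fun B _ => ?_
          rw [← Finset.sum_neg_distrib]
          refine Finset.sum_congr rfl fun D _ => ?_
          rw [he B A D, ← neg_smul]
          congr 1
          push_cast
          ring
  rw [h3, smul_neg, ← neg_smul]
  congr 1
  ring

/-- `∑_b Q_b Q_b u = -8 Δ u + 16 V u + 16 F(x) u` -/
theorem sum_QQ {u : (Cfg d) → F} (hu : ContDiff ℝ ∞ u) (x : (Cfg d)) :
    ∑ b, S.Q b (S.Q b u) x = -((8 : ℂ) • ∑ i, ∑ A, pd i A (pd i A u) x) +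
      ((16 * S.V x : ℝ) : ℂ) • u x + (16 : ℂ) • S.Fx x (u x) := by
  have h0 : ∀ b, S.Q b (S.Q b u) x =
      -(∑ j, ∑ B, ∑ i, ∑ A, S.vec (S.g j) B b (S.vec (S.g i) A b (pd j B (pd i A u) x)))
      + ((-Complex.I) • ∑ j, ∑ B, S.vec (S.g j) B b *
        (fderiv ℝ (S.W b) x (EuclideanSpace.single (j, B) (1 : ℝ)))) (u x)
      + (-Complex.I) • ∑ j, ∑ B, (S.vec (S.g j) B b * S.W b x + S.W b x * S.vec (S.g j) B b)
          (pd j B u x)
      + (S.W b x * S.W b x) (u x) := by
    intro b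
    conv_lhs => rw [Q]
    simp only [pd_Q S b hu]
    rw [Q]
    simp only [map_add, map_smul, map_sum, Finset.sum_add_distrib, smul_add,
      _root_.smul_apply, _root_.sum_apply, _root_.add_apply, mul_apply_eq_comp,
      ← Finset.smul_sum, smul_smul]
    have hI : (-Complex.I) * (-Complex.I) = -1 := by
      rw [neg_mul_neg, Complex.I_mul_I]
    rw [hI, neg_one_smul]
    abel
  simp only [h0, Finset.sum_add_distrib, Finset.sum_neg_distrib]
  rw [S.second_order (fun j B i A => pd j B (pd i A u) x)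
    (fun i A j B => pd_comm hu i j A B x)]
  have h1 : ∑ b, ((-Complex.I) • ∑ j, ∑ B, S.vec (S.g j) B b *
        (fderiv ℝ (S.W b) x (EuclideanSpace.single (j, B) (1 : ℝ)))) (u x) =
        (16 : ℂ) • S.Fx x (u x) := by
    rw [← _root_.sum_apply, ← Finset.smul_sum, S.ferm_order x]
    rfl
  have h2 : ∑ b, (-Complex.I) • ∑ j, ∑ B, (S.vec (S.g j) B b * S.W b x +
      S.W b x * S.vec (S.g j) B b) (pd j B u x) = 0 := by
    rw [← Finset.smul_sum, Finset.sum_comm]
    have : ∀ j, ∑ b, ∑ B, (S.vec (S.g j) B b * S.W b x +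
      S.W b x * S.vec (S.g j) B b) (pd j B u x) = 0 := by
      intro j
      rw [Finset.sum_comm]
      refine Finset.sum_eq_zero fun B _ => ?_
      rw [← _root_.sum_apply, S.first_order]
      rfl
    simp only [this, Finset.sum_const_zero, smul_zero]
  have h3 : ∑ b, (S.W b x * S.W b x) (u x) = ((16 * S.V x : ℝ) : ℂ) • u x := by
    rw [← _root_.sum_apply, S.zero_order]
    rfl
  rw [h1, h2, h3]
  abel

end Setup

lemma re_inner_self (v : F) : (inner ℂ v v).re = ‖v‖ ^ 2 := by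
  rw [inner_self_eq_norm_sq_to_K]
  norm_cast

lemma contDiff_V (S : Setup d F) : ContDiff ℝ ∞ S.V := by
  unfold Setup.V
  refine contDiff_const.mul (ContDiff.sum fun A _ => ContDiff.sum fun i _ =>
    ContDiff.sum fun j _ => (S.contDiff_FF A i j).pow 2)

lemma contDiff_Fx (S : Setup d F) : ContDiff ℝ ∞ S.Fx := by
  unfold Setup.Fx
  refine ContDiff.const_smul _ (ContDiff.sum fun q _ => ContDiff.sum fun A _ =>
    ContDiff.sum fun B _ => ContDiff.sum fun C _ => ?_)
  exact (contDiff_const.mul (Setup.contDiff_ofReal (Setup.contDiff_coord _))).smul contDiff_const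

theorem energy_formula (S : Setup d F) (u : (Cfg d) → F) (hu : Setup.Tst u) :
    (1 / 16 : ℝ) * ∑ β, ∫ x, ‖S.Q β u x‖ ^ 2 =
      (1 / 2) * (∑ i, ∑ A, ∫ x, ‖pd i A u x‖ ^ 2) + (∫ x, S.V x * ‖u x‖ ^ 2)
        + (∫ x, (inner ℂ (u x) (S.Fx x (u x))).re) := by
  have hI : ∀ v : (Cfg d) → F, Setup.Tst v → ((∫ x, ‖v x‖ ^ 2 : ℝ) : ℂ) = ∫ x, inner ℂ (v x) (v x) := by
    intro v _
    rw [← integral_complex_ofReal]
    congr 1
    ext x
    rw [inner_self_eq_norm_sq_to_K]
    norm_cast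
  have h1 : (((1 / 16 : ℝ) * ∑ β, ∫ x, ‖S.Q β u x‖ ^ 2 : ℝ) : ℂ) =
      (1 / 16 : ℂ) * ∫ x, inner ℂ (u x) (∑ b, S.Q b (S.Q b u) x) := by
    push_cast
    congr 1
    simp only [inner_sum]
    rw [integral_finsetSum]
    · refine Finset.sum_congr rfl fun b _ => ?_
      have := hI _ (hu.Q S b)
      rw [this, Q_symm S b u _ hu (S.contDiff_Q b hu.1)]
    · intro b _
      exact hu.inner_int (S.contDiff_Q b (S.contDiff_Q b hu.1)).continuous
  have hc1 : Continuous (fun x => S.V x) := (contDiff_V S).continuous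
  have hF : Setup.Tst (fun x => S.Fx x (u x)) := hu.clm (contDiff_Fx S)
  have h2 : ∀ x, inner ℂ (u x) (∑ b, S.Q b (S.Q b u) x) =
      -(8 : ℂ) * ∑ i, ∑ A, inner ℂ (u x) (pd i A (pd i A u) x) +
      (16 : ℂ) * ((S.V x * ‖u x‖ ^ 2 : ℝ) : ℂ) + (16 : ℂ) * inner ℂ (u x) (S.Fx x (u x)) := by
    intro x
    rw [S.sum_QQ hu.1, inner_add_right, inner_add_right, inner_neg_right, inner_smul_right,
      inner_smul_right, inner_smul_right]
    simp only [inner_sum, inner_self_eq_norm_sq_to_K]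
    push_cast
    simp only [Complex.coe_algebraMap]
    ring
  have h3 : (∫ x, inner ℂ (u x) (∑ b, S.Q b (S.Q b u) x)) =
      (8 : ℂ) * ∑ i, ∑ A, ((∫ x, ‖pd i A u x‖ ^ 2 : ℝ) : ℂ) +
      (16 : ℂ) * ((∫ x, S.V x * ‖u x‖ ^ 2 : ℝ) : ℂ) +
      (16 : ℂ) * ∫ x, inner ℂ (u x) (S.Fx x (u x)) := by
    simp only [h2]
    have i1 : ∀ i A, Integrable (fun x => inner ℂ (u x) (pd i A (pd i A u) x)) := fun i A =>
      hu.inner_int (contDiff_pd (contDiff_pd hu.1)).continuous
    have i1' : Integrable (fun x => -(8 : ℂ) * ∑ i, ∑ A, inner ℂ (u x) (pd i A (pd i A u) x)) :=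
      (integrable_finsetSum _ fun i _ => integrable_finsetSum _ fun A _ => i1 i A).const_mul _
    have i2 : Integrable (fun x => (16 : ℂ) * ((S.V x * ‖u x‖ ^ 2 : ℝ) : ℂ)) :=
      (hu.mul_norm_sq_int hc1).ofReal.const_mul _
    have i3 : Integrable (fun x => (16 : ℂ) * inner ℂ (u x) (S.Fx x (u x))) :=
      (hu.inner_int hF.1.continuous).const_mul _
    have i12 : Integrable (fun x => -(8 : ℂ) * ∑ i, ∑ A, inner ℂ (u x) (pd i A (pd i A u) x) +
        (16 : ℂ) * ((S.V x * ‖u x‖ ^ 2 : ℝ) : ℂ)) := i1'.add i2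
    rw [integral_add i12 i3, integral_add i1' i2, integral_const_mul, integral_const_mul,
      integral_const_mul, integral_complex_ofReal]
    congr 2
    rw [integral_finsetSum _ fun i _ => integrable_finsetSum _ fun A _ => i1 i A, neg_mul,
      ← mul_neg, ← Finset.sum_neg_distrib]
    congr 1
    refine Finset.sum_congr rfl fun i _ => ?_
    rw [integral_finsetSum _ fun A _ => i1 i A, ← Finset.sum_neg_distrib]
    refine Finset.sum_congr rfl fun A _ => ?_
    rw [← integral_inner_pd u (pd i A u) (hu.1.of_le (by simp)) ((contDiff_pd hu.1).of_le (by simp))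
      hu.2 i A, hI _ (hu.pd i A)]
  have h4 := h1.trans (congrArg (fun z => (1 / 16 : ℂ) * z) h3)
  have h5 := congrArg Complex.re h4
  have h6 : (∫ x, inner ℂ (u x) (S.Fx x (u x))).re = ∫ x, (inner ℂ (u x) (S.Fx x (u x))).re := by
    have := integral_re (hu.inner_int hF.1.continuous)
    exact this.symm
  rw [Complex.ofReal_re] at h5
  rw [h5, ← h6]
  simp only [Complex.mul_re, Complex.add_re, Complex.add_im, Complex.mul_im, Complex.ofReal_re,
    Complex.ofReal_im, ← Complex.ofReal_sum]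
  norm_num [Complex.div_re, Complex.div_im]
  ring

end Vale.Agent.P353.Z
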