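import Vale.Agent.P353.Z.Rad

open MeasureTheory Filter Topology
open scoped ContDiff

namespace Vale.Agent.P353.Z

variable {dc : ℕ}

variable {F : Type*} [NormedAddCommGroup F] [InnerProductSpace ℂ F]

/-! ### more `L²` inequalities -/

omit [InnerProductSpace ℂ F] in
lemma nsq_sum_le {ι : Type*} (s : Finset ι) (f : ι → (Cfg dc) → F)
    (hf : ∀ i ∈ s, MemLp (f i) 2 (volume : Measure (Cfg dc))) :
    nsq (fun x => ∑ i ∈ s, f i x) ≤ s.card * ∑ i ∈ s, nsq (f i) := by
  have h1 : ∑ i ∈ s, nsq (f i) = ∫ x, ∑ i ∈ s, ‖f i x‖ ^ 2 := by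
    rw [integral_finsetSum]
    · rfl
    · intro i hi; exact memLp_norm_sq_int (hf i hi)
  rw [h1, nsq, ← integral_const_mul]
  refine integral_mono_of_nonneg (Filter.Eventually.of_forall fun x => by positivity)
    ((integrable_finsetSum _ fun i hi => memLp_norm_sq_int (hf i hi)).const_mul _)
    (Filter.Eventually.of_forall fun x => ?_)
  have h2 := norm_sum_le s (fun i => f i x)
  have h3 := sq_sum_le_card_mul_sum_sq (s := s) (f := fun i => ‖f i x‖)
  exact (pow_le_pow_left₀ (norm_nonneg _) h2 2).trans h3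

omit [InnerProductSpace ℂ F] in
/-- `‖f‖ ≤ c ‖g‖` pointwise -/
lemma nsq_le_of {f g : (Cfg dc) → F} {c : ℝ} (hg : MemLp g 2 (volume : Measure (Cfg dc)))
    (h : ∀ x, ‖f x‖ ≤ c * ‖g x‖) : nsq f ≤ c ^ 2 * nsq g := by
  rw [nsq, nsq, ← integral_const_mul]
  refine integral_mono_of_nonneg (Filter.Eventually.of_forall fun x => by positivity)
    ((memLp_norm_sq_int hg).const_mul _) (Filter.Eventually.of_forall fun x => ?_)
  have := pow_le_pow_left₀ (norm_nonneg _) (h x) 2
  simpa [mul_pow] using this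

namespace Setup

variable (S : Setup dc F)

/-- multiplication of an operator field by a real function -/
lemma continuous_rsmul_op {φ : (Cfg dc) → ℝ} (hφ : Continuous φ) {A : (Cfg dc) → F →L[ℂ] F}
    (hA : Continuous A) : Continuous (fun x => ((φ x : ℝ) : ℂ) • A x) :=
  (Complex.continuous_ofReal.comp hφ).smul hA

lemma bdd_rsmul_op {φ : (Cfg dc) → ℝ} (hφ : Continuous φ) (hc : HasCompactSupport φ)
    {A : (Cfg dc) → F →L[ℂ] F} (hA : Continuous A) : ∃ C, 0 ≤ C ∧ ∀ x, ‖((φ x : ℝ) : ℂ) • A x‖ ≤ C := by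
  have h1 : HasCompactSupport (fun x => ((φ x : ℝ) : ℂ) • A x) := by
    refine hc.mono ?_
    intro x hx
    simp only [Function.mem_support] at hx ⊢
    intro h0
    exact hx (by simp [h0])
  obtain ⟨C, hC⟩ := h1.exists_bound_of_continuous (continuous_rsmul_op hφ hA)
  exact ⟨max C 0, le_max_right _ _, fun x => (hC x).trans (le_max_left _ _)⟩

/-- gradient part of `Q (χ u)` -/
noncomputable def gradOp (χ : (Cfg dc) → ℝ) (β : Fin 16) (x : (Cfg dc)) : F →L[ℂ] F :=
  (-Complex.I) • ∑ i, ∑ A, ((pdr i A χ x : ℝ) : ℂ) • S.vec (S.g i) A β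

lemma Q_cut (χ : (Cfg dc) → ℝ) (β : Fin 16) (u : (Cfg dc) → F) (x : (Cfg dc)) (hχ : DifferentiableAt ℝ χ x)
    (hu : DifferentiableAt ℝ u x) :
    S.Q β (fun y => ((χ y : ℝ) : ℂ) • u y) x = ((χ x : ℝ) : ℂ) • S.Q β u x +
      S.gradOp χ β x (u x) := by
  rw [Q_smul S β χ u x hχ hu, gradOp, sub_eq_add_neg]
  congr 1
  rw [_root_.smul_apply, neg_smul]
  simp only [_root_.smul_apply, _root_.sum_apply]

end Setup
end Vale.Agent.P353.Z
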