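import Vale.Agent.P353.Z.LimL2
import Vale.Agent.P353.Z.Energy

open MeasureTheory Filter Topology
open scoped ContDiff

namespace Vale.Agent.P353.Z

variable {dc : ℕ}

variable {F : Type*} [NormedAddCommGroup F] [InnerProductSpace ℂ F]

/-! ### radial functions -/

/-- radial function of `‖x‖²` -/
noncomputable def rad (f : ℝ → ℝ) (x : (Cfg dc)) : ℝ := f (‖x‖ ^ 2)

lemma contDiff_rad {f : ℝ → ℝ} (hf : ContDiff ℝ ∞ f) : ContDiff ℝ ∞ (rad (dc := dc) f) :=
  hf.comp (contDiff_norm_sq ℝ)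

lemma continuous_rad {f : ℝ → ℝ} (hf : Continuous f) : Continuous (rad (dc := dc) f) :=
  hf.comp (continuous_norm.pow 2)

lemma pdr_rad {f : ℝ → ℝ} (hf : ContDiff ℝ ∞ f) (j : Fin 9) (B : Fin dc) (x : (Cfg dc)) :
    pdr j B (rad f) x = 2 * deriv f (‖x‖ ^ 2) * x (j, B) := by
  have h1 : HasDerivAt f (deriv f (‖x‖ ^ 2)) (‖x‖ ^ 2) :=
    ((hf.differentiable (by simp)) _).hasDerivAt
  have h2 : HasFDerivAt (fun y : (Cfg dc) => ‖y‖ ^ 2) (2 • (innerSL ℝ x)) x :=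
    (hasStrictFDerivAt_norm_sq x).hasFDerivAt
  have h3 := h1.comp_hasFDerivAt x h2
  have h4 : fderiv ℝ (rad f) x = _ := h3.fderiv
  rw [pdr, h4]
  simp only [_root_.smul_apply, innerSL_apply_apply, smul_eq_mul]
  have : inner ℝ x (EuclideanSpace.single (j, B) (1 : ℝ)) = x (j, B) := by
    simp [EuclideanSpace.inner_single_right]
  rw [this]
  simp
  ring

lemma hcs_rad {G : Type*} [Zero G] [TopologicalSpace G] {f : ℝ → G} (hf : HasCompactSupport f) :
    HasCompactSupport (fun x : (Cfg dc) => f (‖x‖ ^ 2)) := by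
  obtain ⟨r, hr⟩ := hf.isCompact.isBounded.subset_closedBall (0 : ℝ)
  refine HasCompactSupport.intro (isCompact_closedBall (0 : (Cfg dc)) (Real.sqrt (max r 0))) ?_
  intro x hx
  by_contra hne
  have h1 : ‖x‖ ^ 2 ∈ tsupport f := subset_tsupport _ hne
  have h2 := hr h1
  rw [Metric.mem_closedBall, dist_zero_right, Real.norm_of_nonneg (by positivity)] at h2
  apply hx
  rw [Metric.mem_closedBall, dist_zero_right]
  exact Real.le_sqrt_of_sq_le (h2.trans (le_max_left _ _))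

lemma hcs_rad' {f : ℝ → ℝ} (hf : HasCompactSupport f) : HasCompactSupport (rad (dc := dc) f) :=
  hcs_rad hf

namespace Setup

variable (S : Setup dc F)

lemma Q_rad {f : ℝ → ℝ} (hf : ContDiff ℝ ∞ f) (β : Fin 16) (u : (Cfg dc) → F) (x : (Cfg dc))
    (hu : DifferentiableAt ℝ u x) :
    S.Q β (fun y => ((rad f y : ℝ) : ℂ) • u y) x = ((rad f x : ℝ) : ℂ) • S.Q β u x +
      (-Complex.I * ((2 * deriv f (‖x‖ ^ 2) : ℝ) : ℂ)) • S.B β x (u x) := by
  rw [Q_smul S β (rad f) u x ((contDiff_rad hf).differentiable (by simp) x) hu, sub_eq_add_neg]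
  congr 1
  rw [neg_mul, neg_smul, mul_smul]
  congr 2
  simp only [B, _root_.sum_apply, _root_.smul_apply, Finset.smul_sum, smul_smul]
  refine Finset.sum_congr rfl fun i _ => Finset.sum_congr rfl fun A _ => ?_
  rw [pdr_rad hf]
  push_cast
  rfl

lemma J_rad {f : ℝ → ℝ} (hf : ContDiff ℝ ∞ f) (k l : Fin 9) (u : (Cfg dc) → F) (x : (Cfg dc))
    (hu : DifferentiableAt ℝ u x) :
    S.J k l (fun y => ((rad f y : ℝ) : ℂ) • u y) x = ((rad f x : ℝ) : ℂ) • S.J k l u x := by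
  have h : ∀ i A, pd i A (fun y => ((rad f y : ℝ) : ℂ) • u y) x =
      ((2 * deriv f (‖x‖ ^ 2) * x (i, A) : ℝ) : ℂ) • u x + ((rad f x : ℝ) : ℂ) • pd i A u x := by
    intro i A
    rw [pd_rsmul ((contDiff_rad hf).differentiable (by simp) x) hu]
    have := pdr_rad hf i A x
    rw [pdr] at this
    rw [this]
  have e : ∀ A, (x (k, A) : ℂ) • (((2 * deriv f (‖x‖ ^ 2) * x (l, A) : ℝ) : ℂ) • u x +
      ((rad f x : ℝ) : ℂ) • pd l A u x) - (x (l, A) : ℂ) •
      (((2 * deriv f (‖x‖ ^ 2) * x (k, A) : ℝ) : ℂ) • u x + ((rad f x : ℝ) : ℂ) • pd k A u x) =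
      ((rad f x : ℝ) : ℂ) • ((x (k, A) : ℂ) • pd l A u x - (x (l, A) : ℂ) • pd k A u x) := by
    intro A
    push_cast
    module
  simp only [J, h, e, ← Finset.smul_sum, map_smul]
  rw [smul_add, smul_comm ((rad f x : ℝ) : ℂ) (-Complex.I)]

end Setup
end Vale.Agent.P353.Z
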