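import Vale.Agent.P353.Z.Ana

open MeasureTheory Filter Topology
open scoped ContDiff

namespace Vale.Agent.P353.Z

variable {d : ℕ}

variable {F : Type*} [NormedAddCommGroup F] [InnerProductSpace ℂ F]

/-! ### general tools: Cauchy-Schwarz, supports, cutoff functions -/

lemma Setup.Tst.memLp {u : (Cfg d) → F} (hu : Setup.Tst u) : MemLp u 2 (volume : Measure (Cfg d)) :=
  hu.1.continuous.memLp_of_hasCompactSupport hu.2

omit [InnerProductSpace ℂ F] in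
lemma memLp_norm_sq_int {f : (Cfg d) → F} (hf : MemLp f 2 (volume : Measure (Cfg d))) :
    Integrable (fun x => ‖f x‖ ^ 2) := (memLp_two_iff_integrable_sq_norm hf.1).mp hf

lemma cs_inner {f g : (Cfg d) → F} (hf : MemLp f 2 (volume : Measure (Cfg d)))
    (hg : MemLp g 2 (volume : Measure (Cfg d))) :
    ‖∫ x, inner ℂ (f x) (g x)‖ ≤ Real.sqrt (∫ x, ‖f x‖ ^ 2) * Real.sqrt (∫ x, ‖g x‖ ^ 2) := by
  have hn : ∀ {f : (Cfg d) → F} (hf : MemLp f 2 (volume : Measure (Cfg d))),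
      ‖hf.toLp f‖ = Real.sqrt (∫ x, ‖f x‖ ^ 2) := by
    intro f hf
    have h1 : ‖hf.toLp f‖ ^ 2 = ∫ x, ‖f x‖ ^ 2 := by
      have h2 := inner_self_eq_norm_sq_to_K (𝕜 := ℂ) (hf.toLp f)
      rw [MeasureTheory.L2.inner_def] at h2
      have h3 : ∫ x, inner ℂ ((hf.toLp f) x) ((hf.toLp f) x) = ((∫ x, ‖f x‖ ^ 2 : ℝ) : ℂ) := by
        rw [← integral_complex_ofReal]
        refine integral_congr_ae ?_
        filter_upwards [hf.coeFn_toLp] with x hx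
        rw [hx, inner_self_eq_norm_sq_to_K]
        norm_cast
      rw [h3] at h2
      have h4 : ((‖hf.toLp f‖ ^ 2 : ℝ) : ℂ) = ((∫ x, ‖f x‖ ^ 2 : ℝ) : ℂ) := by
        rw [h2, Complex.ofReal_pow]
        rfl
      exact Complex.ofReal_injective h4
    rw [← h1, Real.sqrt_sq (norm_nonneg _)]
  have h1 : ∫ x, inner ℂ (f x) (g x) = inner ℂ (hf.toLp f) (hg.toLp g) := by
    rw [MeasureTheory.L2.inner_def]
    refine integral_congr_ae ?_
    filter_upwards [hf.coeFn_toLp, hg.coeFn_toLp] with x hx hy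
    rw [hx, hy]
  rw [h1, ← hn hf, ← hn hg]
  exact norm_inner_le_norm _ _

lemma integrable_inner_memLp {f g : (Cfg d) → F} (hf : MemLp f 2 (volume : Measure (Cfg d)))
    (hg : MemLp g 2 (volume : Measure (Cfg d))) : Integrable (fun x => inner ℂ (f x) (g x)) := by
  refine (MeasureTheory.L2.integrable_inner (𝕜 := ℂ) (hf.toLp f) (hg.toLp g)).congr ?_
  filter_upwards [hf.coeFn_toLp, hg.coeFn_toLp] with x hx hy
  rw [hx, hy]

lemma Setup.Tst.exists_bound {u : (Cfg d) → F} (hu : Setup.Tst u) :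
    ∃ C r : ℝ, 0 ≤ C ∧ 0 < r ∧ (∀ x, ‖u x‖ ≤ C) ∧ ∀ x, r < ‖x‖ → u x = 0 := by
  obtain ⟨C, hC⟩ := hu.2.exists_bound_of_continuous hu.1.continuous
  obtain ⟨r, hr⟩ := hu.2.isCompact.isBounded.subset_closedBall (0 : (Cfg d))
  refine ⟨max C 0, max r 1, le_max_right _ _, lt_of_lt_of_le one_pos (le_max_right _ _),
    fun x => (hC x).trans (le_max_left _ _), fun x hx => ?_⟩
  by_contra hne
  have h1 : x ∈ tsupport u := subset_tsupport _ hne
  have h2 := hr h1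
  rw [Metric.mem_closedBall, dist_zero_right] at h2
  exact absurd hx (not_lt.mpr (h2.trans (le_max_left _ _)))

/-- cutoff functions at scale `R` with gradient bound -/
def IsCut (K R : ℝ) (χ : (Cfg d) → ℝ) : Prop :=
  ContDiff ℝ ∞ χ ∧ HasCompactSupport χ ∧ (∀ x, 0 ≤ χ x) ∧ (∀ x, χ x ≤ 1) ∧
    (∀ x, ‖x‖ ≤ R → χ x = 1) ∧ (∀ x, 2 * R ≤ ‖x‖ → χ x = 0) ∧
    (∀ j B x, |pdr j B χ x| * ‖x‖ ≤ K) ∧ (∀ j B x, ‖x‖ < R → pdr j B χ x = 0)

lemma exists_cut : ∃ K : ℝ, 0 ≤ K ∧ ∀ R : ℝ, 0 < R → ∃ χ : (Cfg d) → ℝ, IsCut K R χ := by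
  let f : ContDiffBump (0 : (Cfg d)) := ⟨1, 2, one_pos, one_lt_two⟩
  have hfc : ContDiff ℝ ∞ (f : (Cfg d) → ℝ) := f.contDiff
  have hfs : HasCompactSupport (f : (Cfg d) → ℝ) := f.hasCompactSupport
  have hg : Continuous (fun y : (Cfg d) => ‖fderiv ℝ (f : (Cfg d) → ℝ) y‖ * ‖y‖) :=
    (hfc.continuous_fderiv (by simp)).norm.mul continuous_norm
  have hgs : HasCompactSupport (fun y : (Cfg d) => ‖fderiv ℝ (f : (Cfg d) → ℝ) y‖ * ‖y‖) :=
    ((hfs.fderiv (𝕜 := ℝ)).norm).mul_right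
  obtain ⟨K, hK⟩ := hgs.exists_bound_of_continuous hg
  refine ⟨max K 0, le_max_right _ _, fun R hR => ⟨fun x => f (R⁻¹ • x), ?_⟩⟩
  have hR' : 0 < R⁻¹ := inv_pos.mpr hR
  have hder : ∀ j B x, pdr j B (fun x : (Cfg d) => f (R⁻¹ • x)) x =
      R⁻¹ * fderiv ℝ (f : (Cfg d) → ℝ) (R⁻¹ • x) (EuclideanSpace.single (j, B) (1 : ℝ)) := by
    intro j B x
    have h1 : HasFDerivAt (fun x : (Cfg d) => R⁻¹ • x) (R⁻¹ • ContinuousLinearMap.id ℝ (Cfg d)) x :=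
      (hasFDerivAt_id x).const_smul R⁻¹
    have h2 := ((hfc.differentiable (by simp)) (R⁻¹ • x)).hasFDerivAt.comp x h1
    have h3 : fderiv ℝ (fun x : (Cfg d) => f (R⁻¹ • x)) x = _ := h2.fderiv
    rw [pdr, h3]
    simp
  refine ⟨?_, ?_, ?_, ?_, ?_, ?_, ?_, ?_⟩
  · exact hfc.comp (contDiff_const_smul R⁻¹)
  · exact hfs.comp_smul hR'.ne'
  · intro x; exact f.nonneg
  · intro x; exact f.le_one
  · intro x hx
    refine f.one_of_mem_closedBall ?_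
    rw [Metric.mem_closedBall, dist_zero_right, norm_smul, Real.norm_of_nonneg hR'.le]
    change R⁻¹ * ‖x‖ ≤ 1
    rw [inv_mul_le_iff₀ hR]
    simpa using hx
  · intro x hx
    refine f.zero_of_le_dist ?_
    rw [dist_zero_right, norm_smul, Real.norm_of_nonneg hR'.le]
    change 2 ≤ R⁻¹ * ‖x‖
    rw [le_inv_mul_iff₀ hR]
    linarith
  · intro j B x
    rw [hder, abs_mul, abs_of_pos hR']
    have h1 : |fderiv ℝ (f : (Cfg d) → ℝ) (R⁻¹ • x) (EuclideanSpace.single (j, B) (1 : ℝ))| ≤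
        ‖fderiv ℝ (f : (Cfg d) → ℝ) (R⁻¹ • x)‖ := by
      have := (fderiv ℝ (f : (Cfg d) → ℝ) (R⁻¹ • x)).le_opNorm
        (EuclideanSpace.single (j, B) (1 : ℝ))
      simpa using this
    have h2 := hK (R⁻¹ • x)
    rw [Real.norm_of_nonneg (by positivity), norm_smul, Real.norm_of_nonneg hR'.le] at h2
    calc R⁻¹ * |fderiv ℝ (f : (Cfg d) → ℝ) (R⁻¹ • x) (EuclideanSpace.single (j, B) (1 : ℝ))| * ‖x‖
        ≤ R⁻¹ * ‖fderiv ℝ (f : (Cfg d) → ℝ) (R⁻¹ • x)‖ * ‖x‖ := by gcongr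
      _ = ‖fderiv ℝ (f : (Cfg d) → ℝ) (R⁻¹ • x)‖ * (R⁻¹ * ‖x‖) := by ring
      _ ≤ K := h2
      _ ≤ max K 0 := le_max_left _ _
  · intro j B x hx
    have h1 : (fun x : (Cfg d) => f (R⁻¹ • x)) =ᶠ[𝓝 x] fun _ => 1 := by
      have : Metric.ball (0 : (Cfg d)) R ∈ 𝓝 x := Metric.isOpen_ball.mem_nhds (by simpa using hx)
      filter_upwards [this] with y hy
      refine f.one_of_mem_closedBall ?_
      rw [Metric.mem_closedBall, dist_zero_right, norm_smul, Real.norm_of_nonneg hR'.le]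
      change R⁻¹ * ‖y‖ ≤ 1
      rw [inv_mul_le_iff₀ hR]
      have : ‖y‖ < R := by simpa using hy
      linarith
    rw [pdr, h1.fderiv_eq]
    simp

end Vale.Agent.P353.Z
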