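import Vale.Agent.P353.Z.RotC
import Vale.Agent.P353.Z.Exact
import Vale.Agent.P353.Z.Tools

open MeasureTheory Filter Topology
open scoped ContDiff

namespace Vale.Agent.P353.Z

variable {dc : ℕ}

variable {F : Type*} [NormedAddCommGroup F] [InnerProductSpace ℂ F]

namespace Setup

variable (S : Setup dc F) [CompleteSpace F]

lemma norm_Ut (k l : Fin 9) (t : ℝ) (u : (Cfg dc) → F) (x : (Cfg dc)) :
    ‖S.Ut k l t u x‖ = ‖u (RR k l (-t) x)‖ := by
  rw [Ut, S.st_norm]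

lemma norm_J_Ut {k l : Fin 9} (h : k ≠ l) (t : ℝ) {u : (Cfg dc) → F} (hu : Differentiable ℝ u) (x : (Cfg dc)) :
    ‖S.J k l (S.Ut k l t u) x‖ = ‖S.J k l u (RR k l (-t) x)‖ := by
  rw [S.J_Ut h t hu, S.st_norm]

/-- radial weights are invariant -/
lemma integral_Ut {k l : Fin 9} (h : k ≠ l) (t : ℝ) (u : (Cfg dc) → F) (φ : ℝ → ℝ) :
    ∫ x, φ ‖x‖ * ‖S.Ut k l t u x‖ ^ 2 = ∫ x, φ ‖x‖ * ‖u x‖ ^ 2 := by
  rw [← integral_comp_RR h (-t) (fun x => φ ‖x‖ * ‖u x‖ ^ 2)]
  congr 1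
  ext x
  rw [S.norm_Ut, RR_norm h]

lemma integral_Ut' {k l : Fin 9} (h : k ≠ l) (t : ℝ) (u : (Cfg dc) → F) :
    ∫ x, ‖S.Ut k l t u x‖ ^ 2 = ∫ x, ‖u x‖ ^ 2 := by
  have := S.integral_Ut h t u (fun _ => 1)
  simpa using this

/-- adjoint of the rotation -/
lemma inner_Ut {k l : Fin 9} (h : k ≠ l) (t : ℝ) (u v : (Cfg dc) → F) :
    ∫ x, inner ℂ (S.Ut k l t u x) (v x) = ∫ x, inner ℂ (u x) (S.Ut k l (-t) v x) := by
  rw [← integral_comp_RR h (-t) (fun x => inner ℂ (u x) (S.Ut k l (-t) v x))]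
  congr 1
  ext x
  rw [Ut, Ut, S.st_adj, neg_neg, RR_cancel_neg h]

lemma hasDerivAt_integral_Ut {k l : Fin 9} (h : k ≠ l) {g : (Cfg dc) → F}
    (hg : LocallyIntegrable g (volume : Measure (Cfg dc))) {ζ : (Cfg dc) → F} (hζ : Tst ζ) (t : ℝ) :
    HasDerivAt (fun t => ∫ x, inner ℂ (g x) (S.Ut k l t ζ x))
      (∫ x, inner ℂ (g x) (Complex.I • S.J k l (S.Ut k l t ζ) x)) t := by
  obtain ⟨C, r, hC, hr, hb, hz⟩ := (hζ.J S k l).exists_bound
  obtain ⟨C', r', hC', hr', hb', hz'⟩ := hζ.exists_bound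
  have hgi : ∀ r : ℝ, Integrable (fun x => (Metric.closedBall (0 : (Cfg dc)) r).indicator
      (fun x => ‖g x‖) x) := by
    intro r
    rw [integrable_indicator_iff Metric.isClosed_closedBall.measurableSet]
    exact (hg.integrableOn_isCompact (isCompact_closedBall _ _)).norm
  have hdiff : Differentiable ℝ ζ := hζ.1.differentiable (by simp)
  refine (hasDerivAt_integral_of_dominated_loc_of_deriv_le (s := Set.univ)
    (bound := fun x => C * (Metric.closedBall (0 : (Cfg dc)) r).indicator (fun x => ‖g x‖) x)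
    (F := fun t x => inner ℂ (g x) (S.Ut k l t ζ x))
    (F' := fun t x => inner ℂ (g x) (Complex.I • S.J k l (S.Ut k l t ζ) x))
    Filter.univ_mem ?_ ?_ ?_ ?_ ?_ ?_).2
  · refine Filter.Eventually.of_forall fun s => ?_
    exact hg.aestronglyMeasurable.inner (S.contDiff_Ut k l s hζ.1).continuous.aestronglyMeasurable
  · refine Integrable.mono' ((hgi r').const_mul C')
      (hg.aestronglyMeasurable.inner (S.contDiff_Ut k l t hζ.1).continuous.aestronglyMeasurable) ?_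
    refine Filter.Eventually.of_forall fun x => ?_
    refine (norm_inner_le_norm _ _).trans ?_
    rw [S.norm_Ut]
    by_cases hx : x ∈ Metric.closedBall (0 : (Cfg dc)) r'
    · rw [Set.indicator_of_mem hx, mul_comm]
      exact mul_le_mul_of_nonneg_right (hb' _) (norm_nonneg _)
    · rw [Set.indicator_of_notMem hx, hz', norm_zero, mul_zero, mul_zero]
      rw [RR_norm h]
      simpa using hx
  · exact hg.aestronglyMeasurable.inner
      ((S.contDiff_J k l (S.contDiff_Ut k l t hζ.1)).const_smul Complex.I).continuous.aestronglyMeasurable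
  · refine Filter.Eventually.of_forall fun x s _ => ?_
    refine (norm_inner_le_norm _ _).trans ?_
    rw [norm_smul, Complex.norm_I, one_mul, S.norm_J_Ut h s hdiff]
    by_cases hx : x ∈ Metric.closedBall (0 : (Cfg dc)) r
    · rw [Set.indicator_of_mem hx, mul_comm]
      exact mul_le_mul_of_nonneg_right (hb _) (norm_nonneg _)
    · rw [Set.indicator_of_notMem hx, hz, norm_zero, mul_zero, mul_zero]
      rw [RR_norm h]
      simpa using hx
  · exact (hgi r).const_mul C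
  · refine Filter.Eventually.of_forall fun x s _ => ?_
    have h1 := (hasDerivAt_const s (g x)).inner ℂ (S.hasDerivAt_Ut h s hdiff x)
    refine h1.congr_deriv ?_
    rw [inner_zero_left, add_zero]

end Setup

/-! ### bounds for linear multipliers -/

section MJ

lemma contDiff_MJ (S : Setup dc F) (k l : Fin 9) (b : Fin 16) : ContDiff ℝ ∞ (S.MJ k l b) := by
  unfold Setup.MJ
  refine ContDiff.add (ContDiff.const_smul _ (ContDiff.sum fun A _ => ContDiff.sub ?_ ?_))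
    (ContDiff.const_smul _ (ContDiff.sum fun j _ => ContDiff.sum fun A _ => ?_))
  · exact (Setup.contDiff_ofReal (Setup.contDiff_coord _)).smul contDiff_const
  · exact (Setup.contDiff_ofReal (Setup.contDiff_coord _)).smul contDiff_const
  · exact (Setup.contDiff_ofReal (Setup.contDiff_coord _)).smul contDiff_const

lemma coord_le_norm (p : Fin 9 × Fin dc) (x : (Cfg dc)) : ‖((x p : ℝ) : ℂ)‖ ≤ ‖x‖ := by
  rw [Complex.norm_real]
  exact PiLp.norm_apply_le x p

lemma MJ_bound (S : Setup dc F) (k l : Fin 9) (b : Fin 16) :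
    ∃ C : ℝ, 0 ≤ C ∧ ∀ x, ‖S.MJ k l b x‖ ≤ C * ‖x‖ := by
  refine ⟨9 * ∑ A, (‖S.vec (S.g l) A b‖ + ‖S.vec (S.g k) A b‖) +
    2 * ∑ j, ∑ A, ‖S.vec (S.g2 k l * S.g j) A b‖, by positivity, fun x => ?_⟩
  have hs : ∀ (p : Fin 9 × Fin dc) (T : F →L[ℂ] F), ‖((x p : ℝ) : ℂ) • T‖ ≤ ‖T‖ * ‖x‖ := by
    intro p T
    rw [norm_smul, mul_comm]
    exact mul_le_mul_of_nonneg_left (coord_le_norm p x) (norm_nonneg _)
  unfold Setup.MJ
  refine (norm_add_le _ _).trans ?_
  rw [norm_smul, norm_smul, add_mul]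
  have h9 : ‖(9 : ℂ)‖ = 9 := by norm_num
  have h2 : ‖(2 : ℂ)‖ = 2 := by norm_num
  rw [h9, h2, mul_assoc, mul_assoc]
  refine add_le_add (mul_le_mul_of_nonneg_left ?_ (by norm_num))
    (mul_le_mul_of_nonneg_left ?_ (by norm_num))
  · rw [Finset.sum_mul]
    refine (norm_sum_le _ _).trans (Finset.sum_le_sum fun A _ => ?_)
    rw [add_mul]
    exact (norm_sub_le _ _).trans (add_le_add (hs _ _) (hs _ _))
  · rw [Finset.sum_mul]
    refine (norm_sum_le _ _).trans (Finset.sum_le_sum fun j _ => ?_)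
    rw [Finset.sum_mul]
    exact (norm_sum_le _ _).trans (Finset.sum_le_sum fun A _ => hs _ _)

end MJ

namespace Setup

variable (S : Setup dc F) [CompleteSpace F]

omit [CompleteSpace F] in
lemma gt_bound (k l : Fin 9) : ∃ C : ℝ, 0 ≤ C ∧ ∀ t b c, ‖S.gt k l t b c‖ ≤ C := by
  refine ⟨1 + ∑ b, ∑ c, ‖S.g2 k l b c‖, by positivity, fun t b c => ?_⟩
  simp only [gt, Matrix.add_apply, Matrix.smul_apply, smul_eq_mul]
  refine (norm_add_le _ _).trans (add_le_add ?_ ?_)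
  · rw [norm_mul, Complex.norm_real, Real.norm_eq_abs]
    have h1 : ‖(1 : Matrix (Fin 16) (Fin 16) ℂ) b c‖ ≤ 1 := by
      rw [Matrix.one_apply]
      split_ifs <;> simp
    exact mul_le_one₀ (Real.abs_cos_le_one _) (norm_nonneg _) h1
  · rw [norm_mul, Complex.norm_real, Real.norm_eq_abs]
    have h1 : ‖S.g2 k l b c‖ ≤ ∑ b, ∑ c, ‖S.g2 k l b c‖ := by
      refine le_trans ?_ (Finset.single_le_sum (f := fun b => ∑ c, ‖S.g2 k l b c‖)
        (fun _ _ => by positivity) (Finset.mem_univ b))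
      exact Finset.single_le_sum (f := fun c => ‖S.g2 k l b c‖)
        (fun _ _ => by positivity) (Finset.mem_univ c)
    calc |Real.sin (t / 2)| * ‖S.g2 k l b c‖ ≤ 1 * ‖S.g2 k l b c‖ := by
          gcongr; exact Real.abs_sin_le_one _
      _ ≤ _ := by rw [one_mul]; exact h1

/-- `Q` of a rotated function is controlled -/
lemma integral_Q_Ut {k l : Fin 9} (h : k ≠ l) : ∃ C : ℝ, 0 ≤ C ∧ ∀ (t : ℝ) (u : (Cfg dc) → F), Tst u →
    ∀ b, ∫ x, ‖S.Q b (S.Ut k l t u) x‖ ^ 2 ≤ C * ∑ c, ∫ x, ‖S.Q c u x‖ ^ 2 := by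
  obtain ⟨C, hC, hb⟩ := S.gt_bound k l
  refine ⟨16 * C ^ 2, by positivity, fun t u hu b => ?_⟩
  have hdiff : Differentiable ℝ u := hu.1.differentiable (by simp)
  have hpt : ∀ x, ‖S.Q b (S.Ut k l t u) x‖ ^ 2 ≤
      ∑ c, (16 * C ^ 2) * ‖S.Q c u (RR k l (-t) x)‖ ^ 2 := by
    intro x
    rw [S.Q_Ut h t hdiff b x, S.st_norm]
    have h1 : ‖∑ c, S.gt k l t b c • S.Q c u (RR k l (-t) x)‖ ≤
        ∑ c, C * ‖S.Q c u (RR k l (-t) x)‖ := by
      refine (norm_sum_le _ _).trans (Finset.sum_le_sum fun c _ => ?_)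
      rw [norm_smul]
      exact mul_le_mul_of_nonneg_right (hb t b c) (norm_nonneg _)
    calc ‖∑ c, S.gt k l t b c • S.Q c u (RR k l (-t) x)‖ ^ 2 ≤
        (∑ c, C * ‖S.Q c u (RR k l (-t) x)‖) ^ 2 := by gcongr
      _ ≤ (Finset.univ : Finset (Fin 16)).card * ∑ c, (C * ‖S.Q c u (RR k l (-t) x)‖) ^ 2 :=
          sq_sum_le_card_mul_sum_sq
      _ = _ := by
          rw [Finset.card_univ, Fintype.card_fin, Finset.mul_sum]
          refine Finset.sum_congr rfl fun c _ => ?_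
          push_cast
          ring
  have hcomp : ∀ c, Integrable (fun x => ‖S.Q c u (RR k l (-t) x)‖ ^ 2) := by
    intro c
    have h1 := (hu.Q S c).norm_sq_int
    have h2 := (RI h (-t)).measurePreserving.integrable_comp_emb
      (RI h (-t)).toHomeomorph.measurableEmbedding (g := fun x => ‖S.Q c u x‖ ^ 2)
    exact h2.mpr h1
  calc ∫ x, ‖S.Q b (S.Ut k l t u) x‖ ^ 2 ≤ ∫ x, ∑ c, (16 * C ^ 2) * ‖S.Q c u (RR k l (-t) x)‖ ^ 2 :=
        integral_mono ((hu.Ut S h t).Q S b).norm_sq_int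
          (integrable_finsetSum _ fun c _ => (hcomp c).const_mul _) hpt
    _ = ∑ c, (16 * C ^ 2) * ∫ x, ‖S.Q c u x‖ ^ 2 := by
        rw [integral_finsetSum _ fun c _ => (hcomp c).const_mul _]
        refine Finset.sum_congr rfl fun c _ => ?_
        rw [integral_const_mul, integral_comp_RR h (-t) (fun x => ‖S.Q c u x‖ ^ 2)]
    _ = _ := by rw [Finset.mul_sum]

end Setup

end Vale.Agent.P353.Z
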