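import Vale.Agent.P353.Z.Gamma

/-! # General gauge algebra: generators and the rotation multiplier (abstract Clifford system) -/

open Matrix

namespace Vale.Agent.P353.Z

variable {d : ℕ}

def E1 (i : Fin 9) (A : Fin d) (j : Fin 9) (B : Fin d) : ℂ := if j = i ∧ B = A then 1 else 0

lemma E1_sum (i : Fin 9) (A : Fin d) (j : Fin 9) {M : Type*} [AddCommGroup M] [Module ℂ M]
    (f : Fin d → M) : ∑ B, E1 i A j B • f B = if j = i then f A else 0 := by
  by_cases h : j = i <;> simp [E1, h]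

namespace CS

variable {R : Type*} [Ring R] [Algebra ℂ R] (S : CS d R)

/-- `S_{kl}` -/
noncomputable def Sk (k l : Fin 9) : R := (-Complex.I / 4) • S.tot (S.g2 k l)

/-- spin part of gauge generator -/
noncomputable def sG (f : Fin d → Fin d → Fin d → ℝ) (C : Fin d) : R :=
  (-Complex.I / 2) • ∑ D, ∑ E, (f C D E : ℂ) • S.bil 1 D E

lemma Sk_antisymm (k l : Fin 9) : S.Sk k l = -S.Sk l k := by
  rw [Sk, S.g2_antisymm, tot_neg, smul_neg]; rfl

lemma tot_g2 (k l : Fin 9) : S.tot (S.g2 k l) = (4 * Complex.I) • S.Sk k l := by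
  rw [Sk, smul_smul]
  have : 4 * Complex.I * (-Complex.I / 4) = 1 := by
    have := Complex.I_mul_I
    linear_combination -this
  rw [this, one_smul]

lemma tot_gg (k l : Fin 9) :
    S.tot (S.g k * S.g l) = (4 * Complex.I) • S.Sk k l + (if k = l then (8 * d:ℂ) else 0) • 1 := by
  have h : S.g k * S.g l = S.g2 k l + (if k = l then (1 : ℂ) else 0) • 1 := by
    rw [g2_eq]; abel
  rw [h, tot_add, tot_g2, tot_smul, tot_one, smul_smul]
  congr 2
  split_ifs <;> simp

lemma Sk_self (k : Fin 9) : S.Sk k k = 0 := by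
  simp [Sk, g2, tot, bil, vec]

/-- `[(Pθ^A)_β, S_{kl}] = -(i/2) (P γ_{kl} θ^A)_β` -/
lemma vec_comm_Sk (P : Matrix (Fin 16) (Fin 16) ℂ) (A : Fin d) (β : Fin 16) (k l : Fin 9) :
    S.vec P A β * S.Sk k l - S.Sk k l * S.vec P A β =
      (-Complex.I / 2) • S.vec (P * S.g2 k l) A β := by
  rw [Sk, mul_smul_comm, smul_mul_assoc, ← smul_sub, S.vec_comm_tot _ _ (S.g2_transpose k l),
    smul_smul]
  congr 1; ring

/-- `[(Pθ^A)_β, 𝒮_C] = -i ε_{CAE} (Pθ^E)_β` -/
lemma vec_comm_sG (f : Fin d → Fin d → Fin d → ℝ) (hf : ∀ C D E, f C D E = -f C E D)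
    (P : Matrix (Fin 16) (Fin 16) ℂ) (A : Fin d) (β : Fin 16) (C : Fin d) :
    S.vec P A β * S.sG f C - S.sG f C * S.vec P A β =
      (-Complex.I) • ∑ E, (f C A E : ℂ) • S.vec P E β := by
  have key : ∀ D E, S.vec P A β * S.bil 1 D E - S.bil 1 D E * S.vec P A β =
      (if A = D then S.vec P E β else 0) - (if A = E then S.vec P D β else 0) := by
    intro D E
    have hb : S.bil 1 D E = ∑ δ, S.vec 1 D δ * S.vec 1 E δ := by
      rw [S.sum_vec_mul_vec]; simp
    rw [hb, Finset.mul_sum, Finset.sum_mul, ← Finset.sum_sub_distrib]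
    have h1 : ∀ δ, S.vec P A β * (S.vec 1 D δ * S.vec 1 E δ) -
        S.vec 1 D δ * S.vec 1 E δ * S.vec P A β =
        (if A = D then (P β δ) • S.vec 1 E δ else 0) -
        (if A = E then (P β δ) • S.vec 1 D δ else 0) := by
      intro δ
      have e1 := S.vec_anti P 1 A D β δ
      have e2 := S.vec_anti P 1 A E β δ
      have : S.vec P A β * (S.vec 1 D δ * S.vec 1 E δ) -
        S.vec 1 D δ * S.vec 1 E δ * S.vec P A β =
        (S.vec P A β * S.vec 1 D δ + S.vec 1 D δ * S.vec P A β) * S.vec 1 E δ -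
        S.vec 1 D δ * (S.vec P A β * S.vec 1 E δ + S.vec 1 E δ * S.vec P A β) := by
        noncomm_ring
      rw [this, e1, e2, Matrix.transpose_one, mul_one]
      by_cases h : A = D <;> by_cases h' : A = E <;> simp [h, h']
    rw [Finset.sum_congr rfl fun δ _ => h1 δ, Finset.sum_sub_distrib]
    congr 1
    · by_cases h : A = D
      · simp only [h, if_true, vec_one]; rfl
      · simp [h]
    · by_cases h : A = E
      · simp only [h, if_true, vec_one]; rfl
      · simp [h]
  have h2 : S.vec P A β * S.sG f C - S.sG f C * S.vec P A β = (-Complex.I / 2) •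
      ∑ D, ∑ E, (f C D E : ℂ) • ((if A = D then S.vec P E β else 0) -
        (if A = E then S.vec P D β else 0)) := by
    rw [sG, mul_smul_comm, smul_mul_assoc, ← smul_sub]
    congr 1
    simp only [Finset.mul_sum, Finset.sum_mul, ← Finset.sum_sub_distrib, mul_smul_comm,
      smul_mul_assoc, ← smul_sub, key]
  rw [h2]
  simp only [smul_sub, smul_ite, smul_zero, Finset.sum_sub_distrib]
  have h3 : ∑ D, ∑ E, (if A = D then (f C D E : ℂ) • S.vec P E β else 0) =
      ∑ E, (f C A E : ℂ) • S.vec P E β := by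
    rw [Finset.sum_comm]; simp
  have h4 : ∑ D, ∑ E, (if A = E then (f C D E : ℂ) • S.vec P D β else 0) =
      -∑ E, (f C A E : ℂ) • S.vec P E β := by
    simp only [Finset.sum_ite_eq, Finset.mem_univ, if_true]
    rw [← Finset.sum_neg_distrib]
    refine Finset.sum_congr rfl fun E _ => ?_
    rw [hf C E A]; push_cast; rw [neg_smul]
  rw [h3, h4]
  module

/-- `F^A_{pq}` -/
noncomputable def FFc (f : Fin d → Fin d → Fin d → ℝ) (κ : ℂ) (X : Fin 9 → Fin d → ℂ) (A : Fin d) (p q : Fin 9) : ℂ :=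
  κ * ∑ B, ∑ C, (f A B C : ℂ) * X p B * X q C

/-- `W_β` -/
noncomputable def Wv (f : Fin d → Fin d → Fin d → ℝ) (κ : ℂ) (X : Fin 9 → Fin d → ℂ) (β : Fin 16) : R :=
  (1 / 2 : ℂ) • ∑ A, ∑ p, ∑ q, FFc f κ X A p q • S.vec (S.g2 p q) A β

lemma sum_Wv_mul (f : Fin d → Fin d → Fin d → ℝ) (κ : ℂ) (X : Fin 9 → Fin d → ℂ) (Y : Fin 16 → R) :
    ∑ β, S.Wv f κ X β * Y β = (1 / 2 : ℂ) • ∑ A, ∑ p, ∑ q, FFc f κ X A p q •
      ∑ β, S.vec (S.g2 p q) A β * Y β := by
  simp only [Wv, smul_mul_assoc, Finset.sum_mul, ← Finset.smul_sum]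
  congr 1
  rw [Finset.sum_comm]
  refine Finset.sum_congr rfl fun A _ => ?_
  rw [Finset.sum_comm]
  refine Finset.sum_congr rfl fun p _ => ?_
  rw [Finset.sum_comm]
  refine Finset.sum_congr rfl fun q _ => ?_
  rw [Finset.smul_sum]

lemma sum_mul_Wv (f : Fin d → Fin d → Fin d → ℝ) (κ : ℂ) (X : Fin 9 → Fin d → ℂ) (Y : Fin 16 → R) :
    ∑ β, Y β * S.Wv f κ X β = (1 / 2 : ℂ) • ∑ A, ∑ p, ∑ q, FFc f κ X A p q •
      ∑ β, Y β * S.vec (S.g2 p q) A β := by
  simp only [Wv, mul_smul_comm, Finset.mul_sum, ← Finset.smul_sum]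
  congr 1
  rw [Finset.sum_comm]
  refine Finset.sum_congr rfl fun A _ => ?_
  rw [Finset.sum_comm]
  refine Finset.sum_congr rfl fun p _ => ?_
  rw [Finset.sum_comm]
  refine Finset.sum_congr rfl fun q _ => ?_
  rw [Finset.smul_sum]

lemma g2_mul_g (p q j : Fin 9) : S.g2 p q * S.g j = S.g j * S.g2 p q +
    (2:ℂ) • ((if q = j then (1:ℂ) else 0) • S.g p - (if p = j then (1:ℂ) else 0) • S.g q) := by
  rw [g2_eq, sub_mul, mul_sub, smul_mul_assoc, one_mul, mul_smul_comm, mul_one]
  have e1 : S.g p * S.g q * S.g j = S.g j * (S.g p * S.g q) +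
    (2:ℂ) • ((if q = j then (1:ℂ) else 0) • S.g p - (if p = j then (1:ℂ) else 0) • S.g q) := by
    rw [mul_assoc, S.g_swap q j, mul_sub, ← mul_assoc, S.g_swap p j, sub_mul]
    simp only [smul_mul_assoc, mul_smul_comm, one_mul, mul_one, mul_assoc]
    by_cases h : q = j <;> by_cases h' : p = j <;> simp [h, h'] <;> module
  rw [e1]
  abel

/-- contraction with the antisymmetric `F_{pq}` -/
lemma sum_vec_anti (P N : Matrix (Fin 16) (Fin 16) ℂ) (A B : Fin d) :
    ∑ β, S.vec P A β * S.vec N B β + ∑ β, S.vec N B β * S.vec P A β =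
      (if A = B then (P * Nᵀ).trace else 0) • (1 : R) := by
  rw [← Finset.sum_add_distrib]
  simp only [vec_anti]
  by_cases h : A = B
  · simp [h, Matrix.trace, Finset.sum_smul]
  · simp [h]

/-- the multiplier for `J_{kl}` -/
noncomputable def MJv (k l : Fin 9) (X : Fin 9 → Fin d → ℂ) (β : Fin 16) : R :=
  (9 : ℂ) • (∑ A, (X k A • S.vec (S.g l) A β - X l A • S.vec (S.g k) A β))
    + (2 : ℂ) • ∑ j, ∑ A, X j A • S.vec (S.g2 k l * S.g j) A β

lemma sum_mul_MJv (k l : Fin 9) (X : Fin 9 → Fin d → ℂ) (P : Matrix (Fin 16) (Fin 16) ℂ)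
    (A : Fin d) :
    ∑ β, S.vec P A β * S.MJv k l X β + ∑ β, S.MJv k l X β * S.vec P A β =
      (9 * (X k A * (P * S.g l).trace - X l A * (P * S.g k).trace) -
        2 * ∑ j, X j A * (P * S.g j * S.g2 k l).trace) • (1 : R) := by
  have h1 : ∑ β, S.vec P A β * S.MJv k l X β = (9 : ℂ) • ∑ B,
      (X k B • ∑ β, S.vec P A β * S.vec (S.g l) B β -
        X l B • ∑ β, S.vec P A β * S.vec (S.g k) B β) +
      (2 : ℂ) • ∑ j, ∑ B, X j B • ∑ β, S.vec P A β * S.vec (S.g2 k l * S.g j) B β := by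
    simp only [MJv, mul_add, mul_smul_comm, Finset.mul_sum, mul_sub, Finset.sum_add_distrib,
      ← Finset.smul_sum]
    congr 2
    · rw [Finset.sum_comm]
      refine Finset.sum_congr rfl fun B _ => ?_
      rw [Finset.sum_sub_distrib, Finset.smul_sum, Finset.smul_sum]
    · rw [Finset.sum_comm]
      refine Finset.sum_congr rfl fun j _ => ?_
      rw [Finset.sum_comm]
      refine Finset.sum_congr rfl fun B _ => ?_
      rw [Finset.smul_sum]
  have h2 : ∑ β, S.MJv k l X β * S.vec P A β = (9 : ℂ) • ∑ B,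
      (X k B • ∑ β, S.vec (S.g l) B β * S.vec P A β -
        X l B • ∑ β, S.vec (S.g k) B β * S.vec P A β) +
      (2 : ℂ) • ∑ j, ∑ B, X j B • ∑ β, S.vec (S.g2 k l * S.g j) B β * S.vec P A β := by
    simp only [MJv, add_mul, smul_mul_assoc, Finset.sum_mul, sub_mul, Finset.sum_add_distrib,
      ← Finset.smul_sum]
    congr 2
    · rw [Finset.sum_comm]
      refine Finset.sum_congr rfl fun B _ => ?_
      rw [Finset.sum_sub_distrib, Finset.smul_sum, Finset.smul_sum]
    · rw [Finset.sum_comm]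
      refine Finset.sum_congr rfl fun j _ => ?_
      rw [Finset.sum_comm]
      refine Finset.sum_congr rfl fun B _ => ?_
      rw [Finset.smul_sum]
  have ht : ∀ j, (P * (S.g2 k l * S.g j)ᵀ).trace = -(P * S.g j * S.g2 k l).trace := by
    intro j
    rw [Matrix.transpose_mul, g2_transpose, S.g_symm, mul_neg, mul_neg, Matrix.trace_neg,
      ← mul_assoc]
  rw [h1, h2]
  have h3 : ∀ a b c d : R, ((9 : ℂ) • a + (2 : ℂ) • b) + ((9 : ℂ) • c + (2 : ℂ) • d) =
      (9 : ℂ) • (a + c) + (2 : ℂ) • (b + d) := by intros; module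
  rw [h3]
  simp only [← Finset.sum_add_distrib]
  have h4 : ∀ B, X k B • ∑ β, S.vec P A β * S.vec (S.g l) B β -
        X l B • ∑ β, S.vec P A β * S.vec (S.g k) B β +
      (X k B • ∑ β, S.vec (S.g l) B β * S.vec P A β -
        X l B • ∑ β, S.vec (S.g k) B β * S.vec P A β) =
      if A = B then (X k A * (P * S.g l).trace - X l A * (P * S.g k).trace) • (1 : R) else 0 := by
    intro B
    have : X k B • ∑ β, S.vec P A β * S.vec (S.g l) B β -
        X l B • ∑ β, S.vec P A β * S.vec (S.g k) B β +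
      (X k B • ∑ β, S.vec (S.g l) B β * S.vec P A β -
        X l B • ∑ β, S.vec (S.g k) B β * S.vec P A β) =
        X k B • (∑ β, S.vec P A β * S.vec (S.g l) B β + ∑ β, S.vec (S.g l) B β * S.vec P A β) -
        X l B • (∑ β, S.vec P A β * S.vec (S.g k) B β + ∑ β, S.vec (S.g k) B β * S.vec P A β) := by
      module
    rw [this, sum_vec_anti, sum_vec_anti, S.g_symm, S.g_symm]
    by_cases h : A = B
    · subst h; simp only [if_true]; module
    · simp [h]
  have h5 : ∀ j B, X j B • ∑ β, S.vec P A β * S.vec (S.g2 k l * S.g j) B β +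
      X j B • ∑ β, S.vec (S.g2 k l * S.g j) B β * S.vec P A β =
      if A = B then (-(X j A * (P * S.g j * S.g2 k l).trace)) • (1 : R) else 0 := by
    intro j B
    rw [← smul_add, sum_vec_anti, ht]
    by_cases h : A = B
    · subst h; simp only [if_true]; module
    · simp [h]
  simp only [h4, h5, Finset.sum_ite_eq, Finset.mem_univ, if_true]
  rw [← Finset.sum_smul, Finset.sum_neg_distrib]
  module

lemma PJ1 (k l : Fin 9) (X : Fin 9 → Fin d → ℂ) (i : Fin 9) (A : Fin d) :
    ∑ β, S.vec (S.g i) A β * S.MJv k l X β =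
      - ∑ β, S.MJv k l X β * S.vec (S.g i) A β +
      (112 * (X k A * (if i = l then 1 else 0) - X l A * (if i = k then 1 else 0))) • (1 : R) := by
  rw [eq_neg_add_iff_add_eq, add_comm, sum_mul_MJv]
  congr 1
  have h : ∀ j, X j A * (S.g i * S.g j * S.g2 k l).trace =
      (if j = k then (16 * X k A * (if i = l then 1 else 0)) else 0) -
      (if j = l then (16 * X l A * (if i = k then 1 else 0)) else 0) := by
    intro j
    rw [S.trace_gg_g2]
    by_cases h1 : j = k
    · subst h1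
      by_cases h2 : j = l
      · subst h2; simp
      · simp only [h2, if_true, if_false]; ring
    · by_cases h2 : j = l
      · subst h2; simp only [h1, if_true, if_false]; ring
      · simp [h1, h2]
  simp only [h, Finset.sum_sub_distrib, Finset.sum_ite_eq', Finset.mem_univ, if_true, trace_gg]
  have a4 : ∀ (P : Prop) [Decidable P], (if P then (16:ℂ) else 0) = 16 * (if P then (1:ℂ) else 0) := by
    intro P _; split_ifs <;> simp
  rw [a4, a4]
  ring

lemma PJ2 (f : Fin d → Fin d → Fin d → ℝ) (κ : ℂ) (k l : Fin 9) (hkl : k ≠ l) (X : Fin 9 → Fin d → ℂ) :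
    (-Complex.I) • ∑ i, ∑ A, ∑ β, S.vec (S.g i) A β * S.MJv k l (E1 i A) β +
      ∑ β, S.Wv f κ X β * S.MJv k l X β + ∑ β, S.MJv k l X β * S.Wv f κ X β =
    (112 : ℂ) • S.Sk k l := by
  have h1 : ∑ β, S.Wv f κ X β * S.MJv k l X β + ∑ β, S.MJv k l X β * S.Wv f κ X β = 0 := by
    rw [sum_Wv_mul, sum_mul_Wv, ← smul_add]
    have a1 : ∀ p q j, (S.g2 p q * S.g j).trace = 0 := by
      intro p q j; rw [Matrix.trace_mul_comm, trace_g_g2]
    have a2 : ∀ p q j, (S.g2 p q * S.g j * S.g2 k l).trace = 0 := by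
      intro p q j; rw [trace_g2_g_g2]
    have a3 : ∀ p q A, ∑ β, S.vec (S.g2 p q) A β * S.MJv k l X β +
        ∑ β, S.MJv k l X β * S.vec (S.g2 p q) A β = 0 := by
      intro p q A
      rw [sum_mul_MJv]
      simp [a1, a2]
    have a4 : ∀ (h g : Fin d → Fin 9 → Fin 9 → R), ∑ A, ∑ p, ∑ q, FFc f κ X A p q • h A p q +
        ∑ A, ∑ p, ∑ q, FFc f κ X A p q • g A p q =
        ∑ A, ∑ p, ∑ q, FFc f κ X A p q • (h A p q + g A p q) := by
      intro h g
      simp only [← Finset.sum_add_distrib, ← smul_add]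
    rw [a4]
    simp [a3]
  have h2 : ∀ i A β, S.MJv k l (E1 i A) β =
      (9 : ℂ) • ((if k = i then S.vec (S.g l) A β else 0) - (if l = i then S.vec (S.g k) A β else 0))
      + (2 : ℂ) • S.vec (S.g2 k l * S.g i) A β := by
    intro i A β
    simp only [MJv, E1_sum, Finset.sum_sub_distrib, Finset.sum_ite_eq', Finset.mem_univ, if_true]
  have h3 : ∑ i, ∑ A, ∑ β, S.vec (S.g i) A β * S.MJv k l (E1 i A) β =
      (112 * Complex.I) • S.Sk k l := by
    have b1 : ∀ i, ∑ A, ∑ β, S.vec (S.g i) A β * S.MJv k l (E1 i A) β =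
        (9 : ℂ) • ((if k = i then S.tot (S.g i * S.g l) else 0) -
          (if l = i then S.tot (S.g i * S.g k) else 0)) +
          (2 : ℂ) • S.tot (S.g i * S.g2 k l * S.g i) := by
      intro i
      simp only [h2, mul_add, mul_smul_comm, Finset.sum_add_distrib, mul_sub, mul_ite, mul_zero,
        ← Finset.smul_sum, Finset.sum_sub_distrib, Finset.sum_ite_irrel, Finset.sum_const_zero,
        S.sum_vec_mul_vec, S.g_symm, tot, mul_assoc]
    simp only [b1, Finset.sum_add_distrib, ← Finset.smul_sum, Finset.sum_sub_distrib,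
      Finset.sum_ite_eq, Finset.mem_univ, if_true]
    rw [← S.tot_sum]
    have : ∑ i, S.g i * S.g2 k l * S.g i = S.sand (S.g2 k l) := rfl
    rw [this, sand_g2, tot_smul, tot_gg, tot_gg, tot_g2, S.Sk_antisymm l k]
    simp only [hkl, Ne.symm hkl, if_false]
    module
  rw [add_assoc, h1, h3, add_zero, smul_smul]
  congr 1
  linear_combination (-112) * Complex.I_mul_I

end CS
end Vale.Agent.P353.Z
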