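import Mathlib

open Matrix

namespace Vale.Agent.P353.Z

variable {d : ℕ}

/-- gamma matrices over `ℂ` and a Clifford system in a complex algebra. -/
structure CS (d : ℕ) (R : Type*) [Ring R] [Algebra ℂ R] where
  g : Fin 9 → Matrix (Fin 16) (Fin 16) ℂ
  g_symm : ∀ i, (g i)ᵀ = g i
  g_anti : ∀ i j, g i * g j + g j * g i = if i = j then 2 else 0
  th : Fin 16 → Fin d → R
  th_anti : ∀ α A β B, th α A * th β B + th β B * th α A = if α = β ∧ A = B then 1 else 0

namespace CS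

variable {R : Type*} [Ring R] [Algebra ℂ R] (S : CS d R)

/-- `γ^{ij}` -/
noncomputable def g2 (i j : Fin 9) : Matrix (Fin 16) (Fin 16) ℂ :=
  (1 / 2 : ℂ) • (S.g i * S.g j - S.g j * S.g i)

/-- `(N θ^A)_β` -/
noncomputable def vec (N : Matrix (Fin 16) (Fin 16) ℂ) (A : Fin d) (β : Fin 16) : R :=
  ∑ γ, N β γ • S.th γ A

/-- `θ^A N θ^B` -/
noncomputable def bil (N : Matrix (Fin 16) (Fin 16) ℂ) (A B : Fin d) : R :=
  ∑ α, S.th α A * S.vec N B α

lemma vec_add (N M : Matrix (Fin 16) (Fin 16) ℂ) (A β) :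
    S.vec (N + M) A β = S.vec N A β + S.vec M A β := by
  simp [vec, add_smul, Finset.sum_add_distrib]

lemma vec_sub (N M : Matrix (Fin 16) (Fin 16) ℂ) (A β) :
    S.vec (N - M) A β = S.vec N A β - S.vec M A β := by
  simp [vec, sub_smul, Finset.sum_sub_distrib]

lemma vec_neg (N : Matrix (Fin 16) (Fin 16) ℂ) (A β) :
    S.vec (-N) A β = -S.vec N A β := by
  simp [vec]

lemma vec_smul (c : ℂ) (N : Matrix (Fin 16) (Fin 16) ℂ) (A β) :
    S.vec (c • N) A β = c • S.vec N A β := by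
  simp [vec, Finset.smul_sum, mul_smul]

lemma vec_sum {ι : Type*} (s : Finset ι) (N : ι → Matrix (Fin 16) (Fin 16) ℂ) (A β) :
    S.vec (∑ i ∈ s, N i) A β = ∑ i ∈ s, S.vec (N i) A β := by
  simp only [vec, Matrix.sum_apply, Finset.sum_smul]
  rw [Finset.sum_comm]

lemma vec_zero (A β) : S.vec 0 A β = 0 := by simp [vec]

lemma vec_one (A β) : S.vec 1 A β = S.th β A := by
  simp [vec, Matrix.one_apply]

lemma vec_mul (N M : Matrix (Fin 16) (Fin 16) ℂ) (A β) :
    S.vec (N * M) A β = ∑ γ, N β γ • S.vec M A γ := by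
  simp only [vec, Matrix.mul_apply, Finset.sum_smul, Finset.smul_sum, mul_smul]
  rw [Finset.sum_comm]

lemma bil_add (N M : Matrix (Fin 16) (Fin 16) ℂ) (A B) :
    S.bil (N + M) A B = S.bil N A B + S.bil M A B := by
  simp [bil, vec_add, mul_add, Finset.sum_add_distrib]

lemma bil_sub (N M : Matrix (Fin 16) (Fin 16) ℂ) (A B) :
    S.bil (N - M) A B = S.bil N A B - S.bil M A B := by
  simp [bil, vec_sub, mul_sub, Finset.sum_sub_distrib]

lemma bil_neg (N : Matrix (Fin 16) (Fin 16) ℂ) (A B) :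
    S.bil (-N) A B = -S.bil N A B := by
  simp [bil, vec_neg]

lemma bil_smul (c : ℂ) (N : Matrix (Fin 16) (Fin 16) ℂ) (A B) :
    S.bil (c • N) A B = c • S.bil N A B := by
  simp [bil, vec_smul, Finset.smul_sum]

lemma bil_sum {ι : Type*} (s : Finset ι) (N : ι → Matrix (Fin 16) (Fin 16) ℂ) (A B) :
    S.bil (∑ i ∈ s, N i) A B = ∑ i ∈ s, S.bil (N i) A B := by
  simp only [bil, vec_sum, Finset.mul_sum]
  rw [Finset.sum_comm]

lemma bil_zero (A B) : S.bil 0 A B = 0 := by simp [bil, vec_zero]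

/-- `{(Nθ^A)_β, (Mθ^B)_δ} = δ_{AB} (N Mᵀ)_{βδ}` -/
lemma vec_anti (N M : Matrix (Fin 16) (Fin 16) ℂ) (A B : Fin d) (β δ : Fin 16) :
    S.vec N A β * S.vec M B δ + S.vec M B δ * S.vec N A β =
      if A = B then ((N * Mᵀ) β δ) • (1 : R) else 0 := by
  have h1 : S.vec N A β * S.vec M B δ =
      ∑ i, ∑ j, (N β i * M δ j) • (S.th i A * S.th j B) := by
    simp only [vec, Finset.sum_mul, Finset.mul_sum, smul_mul_smul_comm]
    rw [Finset.sum_comm]
  have h2 : S.vec M B δ * S.vec N A β =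
      ∑ i, ∑ j, (N β i * M δ j) • (S.th j B * S.th i A) := by
    simp only [vec, Finset.sum_mul, Finset.mul_sum, smul_mul_smul_comm]
    refine Finset.sum_congr rfl fun i _ => Finset.sum_congr rfl fun j _ => ?_
    rw [mul_comm]
  rw [h1, h2, ← Finset.sum_add_distrib]
  simp only [← Finset.sum_add_distrib, ← smul_add, S.th_anti]
  by_cases h : A = B
  · simp [h, Matrix.mul_apply, Finset.sum_smul]
  · simp [h]

lemma vec_anti' (N M : Matrix (Fin 16) (Fin 16) ℂ) (A B : Fin d) (β δ : Fin 16) :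
    S.vec N A β * S.vec M B δ =
      (if A = B then ((N * Mᵀ) β δ) • (1 : R) else 0) - S.vec M B δ * S.vec N A β := by
  rw [← S.vec_anti N M A B β δ]; abel

/-- `∑_β (Nθ^A)_β (Mθ^B)_β = θ^A Nᵀ M θ^B` -/
lemma sum_vec_mul_vec (N M : Matrix (Fin 16) (Fin 16) ℂ) (A B : Fin d) :
    ∑ β, S.vec N A β * S.vec M B β = S.bil (Nᵀ * M) A B := by
  have h1 : ∀ β, S.vec N A β * S.vec M B β =
      ∑ i, ∑ j, (N β i * M β j) • (S.th i A * S.th j B) := by
    intro β
    simp only [vec, Finset.sum_mul, Finset.mul_sum, smul_mul_smul_comm]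
    rw [Finset.sum_comm]
  have h2 : S.bil (Nᵀ * M) A B =
      ∑ i, ∑ j, (∑ β, N β i * M β j) • (S.th i A * S.th j B) := by
    simp only [bil, vec, Finset.mul_sum, mul_smul_comm, Matrix.mul_apply, Matrix.transpose_apply]
  rw [h2, Finset.sum_congr rfl fun β _ => h1 β, Finset.sum_comm]
  refine Finset.sum_congr rfl fun i _ => ?_
  rw [Finset.sum_comm]
  refine Finset.sum_congr rfl fun j _ => ?_
  rw [Finset.sum_smul]

lemma bil_swap (N : Matrix (Fin 16) (Fin 16) ℂ) (A B : Fin d) :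
    S.bil N A B = (if A = B then N.trace • (1 : R) else 0) - S.bil Nᵀ B A := by
  have h : S.bil N A B + S.bil Nᵀ B A = (if A = B then N.trace • (1 : R) else 0) := by
    have h1 : S.bil N A B = ∑ β, S.vec 1 A β * S.vec N B β := by
      rw [S.sum_vec_mul_vec]; simp
    have h2 : S.bil Nᵀ B A = ∑ β, S.vec N B β * S.vec 1 A β := by
      rw [S.sum_vec_mul_vec]; simp
    rw [h1, h2, ← Finset.sum_add_distrib]
    simp only [vec_anti]
    by_cases hAB : A = B
    · simp [hAB, Matrix.trace, Finset.sum_smul]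
    · simp [hAB]
  rw [← h]; abel

/-- the total bilinear `∑_C θ^C N θ^C` -/
noncomputable def tot (N : Matrix (Fin 16) (Fin 16) ℂ) : R := ∑ C, S.bil N C C

lemma tot_add (N M : Matrix (Fin 16) (Fin 16) ℂ) : S.tot (N + M) = S.tot N + S.tot M := by
  simp [tot, bil_add, Finset.sum_add_distrib]

lemma tot_sub (N M : Matrix (Fin 16) (Fin 16) ℂ) : S.tot (N - M) = S.tot N - S.tot M := by
  simp [tot, bil_sub, Finset.sum_sub_distrib]

lemma tot_neg (N : Matrix (Fin 16) (Fin 16) ℂ) : S.tot (-N) = -S.tot N := by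
  simp [tot, bil_neg]

lemma tot_smul (c : ℂ) (N : Matrix (Fin 16) (Fin 16) ℂ) : S.tot (c • N) = c • S.tot N := by
  simp [tot, bil_smul, Finset.smul_sum]

lemma tot_sum {ι : Type*} (s : Finset ι) (N : ι → Matrix (Fin 16) (Fin 16) ℂ) :
    S.tot (∑ i ∈ s, N i) = ∑ i ∈ s, S.tot (N i) := by
  simp only [tot, bil_sum]
  rw [Finset.sum_comm]

lemma tot_one : S.tot 1 = (8 * d : ℂ) • (1 : R) := by
  have h : S.tot 1 = (16 * d : ℂ) • (1 : R) - S.tot 1 := by
    conv_lhs => rw [tot]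
    have : ∀ C, S.bil 1 C C = (16 : ℂ) • (1 : R) - S.bil 1 C C := by
      intro C
      conv_lhs => rw [S.bil_swap]
      simp [Matrix.trace_one]
    rw [Finset.sum_congr rfl fun C _ => this C, Finset.sum_sub_distrib, tot]
    congr 1
    rw [Finset.sum_const, Finset.card_univ, Fintype.card_fin, ← Nat.cast_smul_eq_nsmul ℂ, smul_smul]
    ring_nf
  have h2 : (2 : ℂ) • S.tot 1 = (16 * d : ℂ) • (1 : R) := by
    rw [two_smul]
    nth_rewrite 1 [h]
    abel
  calc S.tot 1 = (1/2 : ℂ) • ((2 : ℂ) • S.tot 1) := by rw [smul_smul]; norm_num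
    _ = _ := by rw [h2, smul_smul]; congr 1; ring

/-- `[(Nθ^A)_β, θ M θ] = 2 (N M θ^A)_β` for antisymmetric `M` -/
lemma vec_comm_tot (N M : Matrix (Fin 16) (Fin 16) ℂ) (hM : Mᵀ = -M) (A : Fin d) (β : Fin 16) :
    S.vec N A β * S.tot M - S.tot M * S.vec N A β = (2 : ℂ) • S.vec (N * M) A β := by
  have key : ∀ C, S.vec N A β * S.bil M C C - S.bil M C C * S.vec N A β =
      if A = C then (2 : ℂ) • S.vec (N * M) A β else 0 := by
    intro C
    have hb : S.bil M C C = ∑ δ, S.vec 1 C δ * S.vec M C δ := by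
      rw [S.sum_vec_mul_vec]; simp
    rw [hb, Finset.mul_sum, Finset.sum_mul, ← Finset.sum_sub_distrib]
    have h1 : ∀ δ, S.vec N A β * (S.vec 1 C δ * S.vec M C δ) -
        S.vec 1 C δ * S.vec M C δ * S.vec N A β =
        (if A = C then (N β δ) • S.vec M C δ - ((N * Mᵀ) β δ) • S.vec 1 C δ else 0) := by
      intro δ
      have e1 := S.vec_anti N 1 A C β δ
      have e2 := S.vec_anti N M A C β δ
      have : S.vec N A β * (S.vec 1 C δ * S.vec M C δ) -
        S.vec 1 C δ * S.vec M C δ * S.vec N A β =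
        (S.vec N A β * S.vec 1 C δ + S.vec 1 C δ * S.vec N A β) * S.vec M C δ -
        S.vec 1 C δ * (S.vec N A β * S.vec M C δ + S.vec M C δ * S.vec N A β) := by
        noncomm_ring
      rw [this, e1, e2]
      by_cases h : A = C
      · simp [h]
      · simp [h]
    rw [Finset.sum_congr rfl fun δ _ => h1 δ]
    by_cases h : A = C
    · subst h
      simp only [if_true, Finset.sum_sub_distrib]
      have a1 : ∑ δ, N β δ • S.vec M A δ = S.vec (N * M) A β := by rw [S.vec_mul]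
      have a2 : ∑ δ, (N * Mᵀ) β δ • S.vec 1 A δ = S.vec (N * Mᵀ) A β := by
        simp only [vec_one]; rfl
      rw [a1, a2, hM, Matrix.mul_neg, S.vec_neg, two_smul]
      abel
    · simp [h]
  rw [tot, Finset.mul_sum, Finset.sum_mul, ← Finset.sum_sub_distrib,
    Finset.sum_congr rfl fun C _ => key C]
  simp

end CS
end Vale.Agent.P353.Z
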