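import Vale.Agent.P353.Defs
import Vale.Agent.P353.Z.Alg

/-! # General gauge algebra: abstract setup with structure constants `f` on `Fin d`

Same conventions as `Vale.Agent.P353.Core` with `ε_{ABC}` replaced by `f_{ABC}`. -/

open MeasureTheory Filter Topology
open scoped ContDiff

namespace Vale.Agent.P353.Z

variable (d : ℕ) (F : Type*) [NormedAddCommGroup F] [InnerProductSpace ℂ F]

/-- Abstract setup: Clifford system acting on `F` and structure constants `f` (totally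
antisymmetric, Jacobi identity). -/
structure Setup extends CS d (F →L[ℂ] F) where
  κ : ℝ
  κ_pos : 0 < κ
  f : Fin d → Fin d → Fin d → ℝ
  f_swap : ∀ A B C, f A B C = - f B A C
  f_cyc : ∀ A B C, f A B C = f B C A
  f_jac : ∀ A B C D, ∑ E, (f A B E * f E C D + f B C E * f E A D + f C A E * f E B D) = 0
  g_real : ∀ i α β, (g i α β).im = 0
  th_sa : ∀ α A (v w : F), inner ℂ (th α A v) w = inner ℂ v (th α A w)

variable {d} {F}

namespace Setup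

variable (S : Setup d F)

lemma f_swap' (A B C : Fin d) : S.f A C B = - S.f A B C := by
  rw [S.f_cyc A C B, S.f_swap C B A, ← S.f_cyc A B C]

/-- `F^A_{ij}(x) = κ f_{ABC} x_i^B x_j^C` -/
noncomputable def FF (A : Fin d) (i j : Fin 9) (x : Cfg d) : ℝ :=
  S.κ * ∑ B, ∑ C, S.f A B C * x (i, B) * x (j, C)

/-- `W_β(x) = (1/2) F^A_{ij} (γ^{ij} θ^A)_β` -/
noncomputable def W (β : Fin 16) (x : Cfg d) : F →L[ℂ] F :=
  (1 / 2 : ℂ) • ∑ A, ∑ i, ∑ j, ((S.FF A i j x : ℝ) : ℂ) • S.vec (S.g2 i j) A β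

/-- supercharge `Q_β u = -i (γ^i θ^A)_β ∂_i^A u + W_β u` -/
noncomputable def Q (β : Fin 16) (u : Cfg d → F) (x : Cfg d) : F :=
  (-Complex.I) • ∑ i, ∑ A, S.vec (S.g i) A β (pd i A u x) + S.W β x (u x)

/-- `S_{kl} = -(i/4) θ γ^{kl} θ` -/
noncomputable def Skl (k l : Fin 9) : F →L[ℂ] F := (-Complex.I / 4) • S.tot (S.g2 k l)

/-- spin part of the gauge generator `𝒮_C = -(i/2) f_{CDE} θ^D·θ^E` -/
noncomputable def cS (C : Fin d) : F →L[ℂ] F :=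
  (-Complex.I / 2) • ∑ D, ∑ E, (S.f C D E : ℂ) • S.bil 1 D E

/-- rotation generator `J_{kl}` -/
noncomputable def J (k l : Fin 9) (u : Cfg d → F) (x : Cfg d) : F :=
  (-Complex.I) • ∑ A, ((x (k, A) : ℂ) • pd l A u x - (x (l, A) : ℂ) • pd k A u x) +
    S.Skl k l (u x)

/-- gauge generator `G_C` -/
noncomputable def G (C : Fin d) (u : Cfg d → F) (x : Cfg d) : F :=
  (-Complex.I) • ∑ i, ∑ A, ∑ B, ((S.f C A B : ℂ) * (x (i, A) : ℂ)) • pd i B u x + S.cS C (u x)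

/-- `B_β(x) = x_i^A (γ^i θ^A)_β` -/
noncomputable def B (β : Fin 16) (x : Cfg d) : F →L[ℂ] F :=
  ∑ i, ∑ A, (x (i, A) : ℂ) • S.vec (S.g i) A β

/-- bosonic potential `V = (1/4) ∑ (F^A_{ij})²` -/
noncomputable def V (x : Cfg d) : ℝ := (1 / 4) * ∑ A, ∑ i, ∑ j, (S.FF A i j x) ^ 2

/-- fermionic potential `F(x) = (i/2) κ f_{ABC} x_q^C θ^A γ^q θ^B` -/
noncomputable def Fx (x : Cfg d) : F →L[ℂ] F :=
  (Complex.I / 2 * (S.κ : ℂ)) • ∑ q, ∑ A, ∑ B, ∑ C, ((S.f A B C : ℂ) * (x (q, C) : ℂ)) •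
    S.bil (S.g q) A B

/-- test functions -/
def Tst (u : Cfg d → F) : Prop := ContDiff ℝ ∞ u ∧ HasCompactSupport u

/-- approximating sequences of zero modes -/
def Apx (Ψ : Lp F 2 (volume : Measure (Cfg d))) (u : ℕ → Cfg d → F) : Prop :=
  (∀ n, Tst (u n)) ∧ (∀ n C x, S.G C (u n) x = 0) ∧
    Tendsto (fun n => ∫ x, ‖u n x - Ψ x‖ ^ 2) atTop (𝓝 0) ∧
    ∀ β, Tendsto (fun n => ∫ x, ‖S.Q β (u n) x‖ ^ 2) atTop (𝓝 0)

/-- zero modes -/
def IsZM (Ψ : Lp F 2 (volume : Measure (Cfg d))) : Prop := ∃ u, S.Apx Ψ u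

end Setup
end Vale.Agent.P353.Z
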